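import Vale.Agent.P050.H148.Defs

/-!
Statement-level definitions.
-/

namespace Vale.Agent.P050.M18C

open Vale.Agent.P050.H148

/-- The Moebius ladder `moebiusLadder k` together with one more vertex `none`, which is adjacent to
the two vertices `(0, true)` and `(1, true)`. For `k = 5` it has 11 vertices and 17 edges. -/
def cherryLadder (k : ℕ) : SimpleGraph (Option (ZMod k × Bool)) where
  Adj u v := (∃ a b, (moebiusLadder k).Adj a b ∧ u = some a ∧ v = some b) ∨
    (u = none ∧ (v = some (0, true) ∨ v = some (1, true))) ∨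
    (v = none ∧ (u = some (0, true) ∨ u = some (1, true)))
  symm := ⟨fun u v h => by
    rcases h with ⟨a, b, h, hu, hv⟩ | h | h
    · exact Or.inl ⟨b, a, h.symm, hv, hu⟩
    · exact Or.inr (Or.inr h)
    · exact Or.inr (Or.inl h)⟩
  loopless := ⟨fun u h => by
    rcases h with ⟨a, b, h, hu, hv⟩ | ⟨hu, hv⟩ | ⟨hu, hv⟩
    · rw [hu] at hv
      exact (moebiusLadder k).loopless.irrefl a (by rw [Option.some.inj hv] at h ⊢; exact h)
    · rw [hu] at hv
      rcases hv with hv | hv <;> exact absurd hv (by simp)
    · rw [hu] at hv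
      rcases hv with hv | hv <;> exact absurd hv (by simp)⟩

end Vale.Agent.P050.M18C
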