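import Vale.Agent.P050.M18C.Law

/-!
Entropies in the two blocks.
-/

set_option linter.unusedSectionVars false

namespace Vale.Agent.P050.M18C

open Finset Vale.Agent.P050.Cart Vale.Agent.P050.Join Vale.Agent.P050.M18

variable {U : Type} [Fintype U] {Q : U × U → ℝ} (hE : Edge Q)
include hE

theorem S3_all : ent (S3 Q) (fun x => x) = 3 * hQ Q - 2 * aQ Q := by
  have h := nat_ent hE hE.C3_nn (C3_b hE) (fun x => x) (fun x => x.1.2) (fun _ => rfl)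
  have e : ent (S3 Q) (fun x => x) = ent (att (C3 Q) (fun x => x.1.2) (nb Q))
    (fun x => (x.1, x.2)) := rfl
  rw [e, h, C3_ent' hE]
  ring

theorem A4_all : ent (A4 Q) (fun x => x) = 7 * hQ Q - 5 * aQ Q - h2Q Q := by
  have h1 := nat_ent hE (A3_nn hE) (A3_s1 hE) (fun x => x) (fun x => x.1.1.1.1.1) (fun _ => rfl)
  have h2 := nat_ent hE (A2_nn hE) (A2_s1 hE) (fun x => x) (fun x => x.1.1.1.1) (fun _ => rfl)
  have h3 := cop_ent (S3_nn hE) (fun x => (x.1.1.1, x.1.2)) (fun x => x.1.1.2) (fun x => x)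
    (fun x => (x.1.1.1, x.1.2)) (fun _ => rfl)
  have e1 : ent (A4 Q) (fun x => x) = ent (att (A3 Q) (fun x => x.1.1.1.1.1) (nb Q))
    (fun x => (x.1, x.2)) := rfl
  have e2 : ent (A3 Q) (fun x => x) = ent (att (A2 Q) (fun x => x.1.1.1.1) (nb Q))
    (fun x => (x.1, x.2)) := rfl
  have e3 : ent (A2 Q) (fun x => x) = ent (cop (S3 Q) (fun x => (x.1.1.1, x.1.2))
    (fun x => x.1.1.2)) (fun x => (x.1, x.2)) := rfl
  have h4 := S3_copy hE
  rw [e1, h1, e2, h2, e3, h3, h4, S3_all hE]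
  ring

theorem A4_b : ent (A4 Q) (fun x => (x.2, x.1.1.2, x.1.1.1.1.2, x.1.2, x.1.1.1.2, x.1.1.1.1.1.1)) =
    st Q + (2 * hQ Q - aQ Q - h2Q Q) + 2 * (hQ Q - aQ Q) := by
  have h1 := nat_ent hE (A3_nn hE) (A3_s1 hE) (fun x => (((x.1.1.1.1.1, x.1.1.1.2, x.1.1.2), x.1.2), x.2))
    (fun x => x.1.1.1) (fun _ => rfl)
  have h2 := nat_ent hE (A2_nn hE) (A2_s1 hE) (fun x => ((x.1.1.1.1, x.1.1.2, x.1.2), x.2))
    (fun x => x.1.1) (fun _ => rfl)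
  have h3 := cop_ent (S3_nn hE) (fun x => (x.1.1.1, x.1.2)) (fun x => x.1.1.2)
    (fun x => (x.1.1.1, x.1.2, x.2)) (fun x => (x.1, x.2.1)) (fun _ => rfl)
  have e0 : ent (A4 Q) (fun x => (x.2, x.1.1.2, x.1.1.1.1.2, x.1.2, x.1.1.1.2, x.1.1.1.1.1.1)) =
      ent (A4 Q) (fun x => ((((x.1.1.1.1.1.1, x.1.1.1.1.2, x.1.1.1.2), x.1.1.2), x.1.2), x.2)) :=
    ent_same _ fun x y => by
      simp only [Prod.mk.injEq]
      tauto
  have e1 : ent (A4 Q) (fun x => ((((x.1.1.1.1.1.1, x.1.1.1.1.2, x.1.1.1.2), x.1.1.2), x.1.2), x.2)) =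
      ent (att (A3 Q) (fun x => x.1.1.1.1.1) (nb Q))
        (fun x => ((((x.1.1.1.1.1.1, x.1.1.1.1.2, x.1.1.1.2), x.1.1.2), x.1.2), x.2)) := rfl
  have e2 : ent (A3 Q) (fun x => (((x.1.1.1.1.1, x.1.1.1.2, x.1.1.2), x.1.2), x.2)) =
      ent (att (A2 Q) (fun x => x.1.1.1.1) (nb Q))
        (fun x => (((x.1.1.1.1.1, x.1.1.1.2, x.1.1.2), x.1.2), x.2)) := rfl
  have e3 : ent (A2 Q) (fun x => ((x.1.1.1.1, x.1.1.2, x.1.2), x.2)) =
      ent (cop (S3 Q) (fun x => (x.1.1.1, x.1.2)) (fun x => x.1.1.2))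
        (fun x => ((x.1.1.1.1, x.1.1.2, x.1.2), x.2)) := rfl
  have h4 := S3_copy hE
  have h5 : ent (S3 Q) (fun x => (x.1.1.1, x.1.2, x.2)) = st Q := rfl
  rw [e0, e1, h1, e2, h2, e3, h3, h4, h5]
  ring

theorem A4_ent2 {α : Type} [Fintype α] (g : (((U × U) × U) × U) × U → α) :
    ent (A4 Q) (fun x => g x.1.1) = ent (A2 Q) g := by
  unfold ent
  rw [A4_fst2 hE g]

theorem A2_ent1 {α : Type} [Fintype α] (g : ((U × U) × U) × U → α) :
    ent (A2 Q) (fun x => g x.1) = ent (S3 Q) g := by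
  unfold ent
  rw [A2_fst hE g]

theorem A2_law {α : Type} [Fintype α] (g : (U × U) × U → α) :
    mar (A2 Q) (fun x => g ((x.1.1.1.1, x.1.1.2), x.2)) =
      mar (S3 Q) (fun x => g ((x.1.1.1, x.1.2), x.1.1.2)) := by
  have h := cop_law (S3_nn hE) (fun x => (x.1.1.1, x.1.2)) (fun x => x.1.1.2)
  funext a
  have h1 := mar_mar (A2 Q) (fun x => ((x.1.1.1.1, x.1.1.2), x.2)) g a
  have h2 := mar_mar (S3 Q) (fun x => ((x.1.1.1, x.1.2), x.1.1.2)) g a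
  rw [← h1, ← h2]
  congr 1

theorem A4_n : ent (A4 Q) (fun x => x.1.1.1.2) = aQ Q := by
  rw [A4_ent2 hE (fun x => x.1.2), A2_ent1 hE (fun x => x.2)]
  unfold aQ ent
  have h : mar (S3 Q) (fun x => x.2) = mm Q := nat_new hE hE.C3_nn (C3_b hE)
  rw [h]
  simp_rw [mar_id]

theorem A4_s2 : ent (A4 Q) (fun x => x.1.1.2) = aQ Q := by
  rw [A4_ent2 hE (fun x => x.2)]
  unfold aQ ent
  have h := A2_law hE (fun y => y.2)
  simp only at h
  rw [h, S3_fst hE (fun x => x.1.2), C3_b hE]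
  simp_rw [mar_id]

theorem A4_s2f2 : ent (A4 Q) (fun x => (x.1.1.2, x.1.1.1.1.2)) = hQ Q := by
  rw [A4_ent2 hE (fun x => (x.2, x.1.1.2))]
  have h := A2_law hE (fun y => (y.2, y.1.2))
  simp only at h
  have h1 : ent (A2 Q) (fun x => (x.2, x.1.1.2)) = ent (S3 Q) (fun x => (x.1.1.2, x.1.2)) := by
    unfold ent
    rw [h]
  rw [h1, S3_ent_fst hE (fun x => (x.1.2, x.2))]
  unfold hQ ent
  rw [hE.C3_23]
  simp_rw [mar_id]

theorem A2_edge' : mar (A2 Q) (fun x => (x.2, x.1.1.1.1)) = Q := by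
  have h := A2_law hE (fun y => (y.2, y.1.1))
  simp only at h
  rw [h, S3_fst hE (fun x => (x.1.2, x.1.1))]
  have h2 : mar (C3 Q) (fun x => (x.1.2, x.1.1)) =
      mar (mar (C3 Q) (fun x => x.1)) (fun e => (e.2, e.1)) := by
    funext a
    rw [mar_mar]
  rw [h2, hE.C3_12]
  funext ⟨a, b⟩
  have h3 := mar_inj Q (fun x => x) (e := fun x : U × U => (x.2, x.1)) (fun a b h => by
    simp only [Prod.mk.injEq] at h
    exact Prod.ext h.2 h.1) (b, a)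
  rw [mar_id] at h3
  rw [hE.sym a b]
  exact h3

theorem A4_star : ent (A4 Q) (fun x => (x.1.1.2, x.1.2, x.2)) = st Q := by
  have h := star_law hE (f := fun x : (((U × U) × U) × U) × U => x.1.1.1.1)
    (g := fun x : (((U × U) × U) × U) × U => x.2) (A2_edge' hE)
  have h1 := ent_mar (A4 Q) (fun x => (((x.1.1.2, x.1.1.1.1.1.1), x.1.2), x.2))
    (fun x => (x.1.1.1, x.1.2, x.2))
  have h2 : mar (A4 Q) (fun x => (((x.1.1.2, x.1.1.1.1.1.1), x.1.2), x.2)) = S3 Q := h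
  rw [h2] at h1
  exact h1.symm

theorem A4_c : ent (A4 Q) (fun x => (x.2, x.1.1.2, x.1.1.1.1.2, x.1.2, x.1.1.1.2)) ≤ st Q + hQ Q := by
  have h1 := suba (A4_nn hE) (A4_tot hE) (A := fun x => x.1.1.1.2) (B := fun x => (x.2, x.1.2, x.1.1.2, x.1.1.1.1.2))
    (C := fun x => (x.2, x.1.1.2, x.1.1.1.1.2, x.1.2, x.1.1.1.2)) (fun x y => by
      simp only [Prod.mk.injEq]
      tauto)
  have h2 := subm (A4_nn hE) (A := fun x => (x.1.1.2, x.1.2, x.2)) (B := fun x => (x.1.1.2, x.1.1.1.1.2))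
    (C := fun x => (x.2, x.1.2, x.1.1.2, x.1.1.1.1.2)) (D := fun x => x.1.1.2) (fun x y => by
      simp only [Prod.mk.injEq]
      tauto) (fun x y => by
      simp only [Prod.mk.injEq]
      tauto) (fun x y => by
      simp only [Prod.mk.injEq]
      tauto)
  rw [A4_n hE] at h1
  rw [A4_star hE, A4_s2f2 hE, A4_s2 hE] at h2
  linarith

theorem A4_a : 7 * hQ Q - 5 * aQ Q - h2Q Q ≤ ent (A4 Q) (fun x => (x.2, x.1.1.2, x.1.1.1.1.1.2, x.1.1.1.1.2, x.1.2, x.1.1.1.2)) +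
    (ent (A4 Q) (fun x => ((x.2, x.1.1.2, x.1.1.1.1.1.2, x.1.2, x.1.1.1.2), x.1.1.1.1.1.1)) - ent (A4 Q) (fun x => (x.2, x.1.1.2, x.1.1.1.1.1.2, x.1.2, x.1.1.1.2))) := by
  have h2 := subm (A4_nn hE) (A := fun x => (x.2, x.1.1.2, x.1.1.1.1.1.2, x.1.1.1.1.2, x.1.2, x.1.1.1.2))
    (B := fun x => ((x.2, x.1.1.2, x.1.1.1.1.1.2, x.1.2, x.1.1.1.2), x.1.1.1.1.1.1))
    (C := fun x => x) (D := fun x => (x.2, x.1.1.2, x.1.1.1.1.1.2, x.1.2, x.1.1.1.2)) (fun x y => by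
      simp only [Prod.mk.injEq, Prod.ext_iff]
      tauto) (fun x y => by
      simp only [Prod.mk.injEq]
      tauto) (fun x y => by
      simp only [Prod.mk.injEq]
      tauto)
  rw [A4_all hE] at h2
  linarith

theorem A4_bc : 3 * hQ Q - 3 * aQ Q - h2Q Q ≤
    ent (A4 Q) (fun x => ((x.2, x.1.1.2, x.1.1.1.1.2, x.1.2, x.1.1.1.2), x.1.1.1.1.1.1)) - ent (A4 Q) (fun x => (x.2, x.1.1.2, x.1.1.1.1.2, x.1.2, x.1.1.1.2)) := by
  have h1 := A4_b hE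
  have h2 := A4_c hE
  have e : ent (A4 Q) (fun x => ((x.2, x.1.1.2, x.1.1.1.1.2, x.1.2, x.1.1.1.2), x.1.1.1.1.1.1)) =
      ent (A4 Q) (fun x => (x.2, x.1.1.2, x.1.1.1.1.2, x.1.2, x.1.1.1.2, x.1.1.1.1.1.1)) := ent_same _ fun x y => by
    simp only [Prod.mk.injEq]
    tauto
  rw [e]
  linarith

end Vale.Agent.P050.M18C
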