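import Vale.Agent.P050.M18C.EntA

/-!
Entropies in the second block.
-/

set_option linter.unusedSectionVars false

namespace Vale.Agent.P050.M18C

open Finset Vale.Agent.P050.Cart Vale.Agent.P050.Join Vale.Agent.P050.M18

variable {U : Type} [Fintype U] {Q : U × U → ℝ} (hE : Edge Q)
include hE

theorem B2_ent1 {α : Type} [Fintype α] (g : ((U × U) × U) × U → α) :
    ent (B2 Q) (fun x => g x.1) = ent (S3 Q) g := by
  unfold ent
  rw [B2_fst hE g]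

theorem B3_ent1 {α : Type} [Fintype α] (g : (((U × U) × U) × U) × U → α) :
    ent (B3 Q) (fun x => g x.1) = ent (B2 Q) g := by
  unfold ent
  rw [B3_fst hE g]

/-- the entropy of `f0` given `s0, f1` -/
theorem B3_ent {α : Type} [Fintype α] (g : (((U × U) × U) × U) × U → α) (k : α → U × U)
    (hk : ∀ x, (x.1.1.1.1, x.1.1.2) = k (g x)) :
    ent (B3 Q) (fun x => (g x.1, x.2)) = ent (B2 Q) g + (2 * hQ Q - aQ Q - h2Q Q) := by
  have h := cop_ent (B2_nn hE) (fun x => (x.1.1.1.1, x.1.1.2)) (fun x => x.1.1.1.2) g k hk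
  have e1 := B2_ent1 hE (fun x => ((x.1.1.1, x.1.2), x.1.1.2))
  have e2 := B2_ent1 hE (fun x => (x.1.1.1, x.1.2))
  have e3 := S3_copy hE
  have e4 : ent (B3 Q) (fun x => (g x.1, x.2)) = ent (cop (B2 Q) (fun x => (x.1.1.1.1, x.1.1.2))
    (fun x => x.1.1.1.2)) (fun x => (g x.1, x.2)) := rfl
  rw [e4, h, e1, e2, e3]

theorem B2_three : ent (B2 Q) (fun x => (x.1.1.1.1, x.1.1.2, x.1.2)) = st Q := by
  rw [B2_ent1 hE (fun x => (x.1.1.1, x.1.2, x.2))]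
  rfl

theorem B2_four : ent (B2 Q) (fun x => ((x.1.1.1.1, x.1.1.2, x.1.2), x.2)) = st Q + (hQ Q - aQ Q) := by
  have h := nat_ent hE (S3_nn hE) (S3_c hE) (fun x => (x.1.1.1, x.1.2, x.2)) (fun x => x.2.1)
    (fun _ => rfl)
  exact h

theorem B2_star : ent (B2 Q) (fun x => (x.1.1.1.1, x.1.1.1.2, x.1.1.2, x.1.2)) = 3 * hQ Q - 2 * aQ Q := by
  rw [B2_ent1 hE (fun x => (x.1.1.1, x.1.1.2, x.1.2, x.2)), ← S3_all hE]
  exact ent_same _ fun x y => by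
    simp only [Prod.ext_iff]
    tauto

/-- `f0` given the rest -/
theorem B3_4 : ent (B3 Q) (fun x => ((x.1.2, x.1.1.1.2, x.1.1.2, x.1.1.1.1.1), x.2)) - ent (B3 Q) (fun x => (x.1.2, x.1.1.1.2, x.1.1.2, x.1.1.1.1.1)) =
    2 * hQ Q - aQ Q - h2Q Q := by
  have h1 := B3_ent hE (fun x => (x.2, x.1.1.2, x.1.2, x.1.1.1.1)) (fun y => (y.2.2.2, y.2.1)) (fun _ => rfl)
  have h2 := B3_ent1 hE (fun x => (x.2, x.1.1.2, x.1.2, x.1.1.1.1))
  rw [h1, h2]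
  ring

theorem B3_u : ent (B3 Q) (fun x => (x.1.2, x.2, x.1.1.2, x.1.1.1.1.1)) ≤ 2 * aQ Q + hQ Q := by
  have h1 := suba (B3_nn hE) (B3_tot hE) (A := fun x => x.1.2) (B := fun x => (x.2, x.1.1.2, x.1.1.1.1.1))
    (C := fun x => (x.1.2, x.2, x.1.1.2, x.1.1.1.1.1)) (fun x y => by
      simp only [Prod.mk.injEq]
      tauto)
  have h2 := suba (B3_nn hE) (B3_tot hE) (A := fun x => x.1.1.2) (B := fun x => (x.1.1.1.1.1, x.2))
    (C := fun x => (x.2, x.1.1.2, x.1.1.1.1.1)) (fun x y => by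
      simp only [Prod.mk.injEq]
      tauto)
  have h3 : ent (B3 Q) (fun x => x.1.2) = aQ Q := by
    rw [B3_ent1 hE (fun x => x.2)]
    unfold aQ ent
    have h : mar (B2 Q) (fun x => x.2) = mm Q := nat_new hE (S3_nn hE) (S3_c hE)
    rw [h]
    simp_rw [mar_id]
  have h4 : ent (B3 Q) (fun x => x.1.1.2) = aQ Q := by
    rw [B3_ent1 hE (fun x => x.1.2), B2_ent1 hE (fun x => x.2)]
    unfold aQ ent
    have h : mar (S3 Q) (fun x => x.2) = mm Q := nat_new hE hE.C3_nn (C3_b hE)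
    rw [h]
    simp_rw [mar_id]
  have h5 : ent (B3 Q) (fun x => (x.1.1.1.1.1, x.2)) = hQ Q := by
    have h := cop_law (B2_nn hE) (fun x => (x.1.1.1.1, x.1.1.2)) (fun x => x.1.1.1.2)
    have e1 : ent (B3 Q) (fun x => (x.1.1.1.1.1, x.2)) =
        ent (mar (B3 Q) (fun x => ((x.1.1.1.1.1, x.1.1.1.2), x.2))) (fun y => (y.1.1, y.2)) := by
      rw [ent_mar]
    have e2 : mar (B3 Q) (fun x => ((x.1.1.1.1.1, x.1.1.1.2), x.2)) =
      mar (B2 Q) (fun x => ((x.1.1.1.1, x.1.1.2), x.1.1.1.2)) := h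
    rw [e1, e2, ent_mar, B2_ent1 hE (fun x => (x.1.1.1, x.1.1.2)), S3_ent_fst hE (fun x => (x.1.1, x.1.2))]
    have e3 : ent (C3 Q) (fun x => (x.1.1, x.1.2)) = ent (mar (C3 Q) (fun x => x.1)) (fun e => e) := by
      rw [ent_mar]
    rw [e3, hE.C3_12]
    rfl
  rw [h3] at h1
  rw [h4, h5] at h2
  linarith

/-- `f1` given `f2, f0, m, s0` -/
theorem B3_5 : st Q + 2 * hQ Q - 4 * aQ Q - h2Q Q ≤
    ent (B3 Q) (fun x => ((x.1.2, x.2, x.1.1.2, x.1.1.1.1.1), x.1.1.1.2)) - ent (B3 Q) (fun x => (x.1.2, x.2, x.1.1.2, x.1.1.1.1.1)) := by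
  have h1 := B3_ent hE (fun x => ((x.1.1.1.1, x.1.1.2, x.1.2), x.2)) (fun y => (y.1.1, y.1.2.1))
    (fun _ => rfl)
  have h2 := B2_four hE
  have h3 := B3_u hE
  have e : ent (B3 Q) (fun x => ((x.1.2, x.2, x.1.1.2, x.1.1.1.1.1), x.1.1.1.2)) =
      ent (B3 Q) (fun x => (((x.1.1.1.1.1, x.1.1.1.2, x.1.1.2), x.1.2), x.2)) := ent_same _ fun x y => by
    simp only [Prod.mk.injEq]
    tauto
  rw [h2] at h1
  rw [e]
  linarith

/-- `s1` given `f0, f1, s0, m` -/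
theorem B3_6 : ent (B3 Q) (fun x => ((x.2, x.1.1.1.2, x.1.1.1.1.1, x.1.1.2), x.1.1.1.1.2)) - ent (B3 Q) (fun x => (x.2, x.1.1.1.2, x.1.1.1.1.1, x.1.1.2)) =
    3 * hQ Q - 2 * aQ Q - st Q := by
  have h1 := B3_ent hE (fun x => (x.1.1.1.1, x.1.1.1.2, x.1.1.2, x.1.2)) (fun y => (y.1, y.2.2.1)) (fun _ => rfl)
  have h2 := B3_ent hE (fun x => (x.1.1.1.1, x.1.1.2, x.1.2)) (fun y => (y.1, y.2.1)) (fun _ => rfl)
  have e1 : ent (B3 Q) (fun x => ((x.2, x.1.1.1.2, x.1.1.1.1.1, x.1.1.2), x.1.1.1.1.2)) =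
      ent (B3 Q) (fun x => ((x.1.1.1.1.1, x.1.1.1.1.2, x.1.1.1.2, x.1.1.2), x.2)) := ent_same _ fun x y => by
    simp only [Prod.mk.injEq]
    tauto
  have e2 : ent (B3 Q) (fun x => (x.2, x.1.1.1.2, x.1.1.1.1.1, x.1.1.2)) =
      ent (B3 Q) (fun x => ((x.1.1.1.1.1, x.1.1.1.2, x.1.1.2), x.2)) := ent_same _ fun x y => by
    simp only [Prod.mk.injEq]
    tauto
  rw [B2_star hE] at h1
  rw [B2_three hE] at h2
  rw [e1, e2]
  linarith

end Vale.Agent.P050.M18C
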