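import Vale.Agent.P050.M18C.Run

/-!
A family of independent neighbours of `s1` is attached to the first block.
-/

set_option linter.unusedSectionVars false

namespace Vale.Agent.P050.M18C

open Finset Vale.Agent.P050.Cart Vale.Agent.P050.Join Vale.Agent.P050.M18

section fam

variable {U Ω : Type} [Fintype U] [Fintype Ω]

/-- `c` independent neighbours -/
noncomputable def nbc (Q : U × U → ℝ) (c : ℕ) (y : U) (μ : Fin c → U) : ℝ := ∏ i, nb Q y (μ i)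

variable {Q : U × U → ℝ} (hE : Edge Q) (c : ℕ)
include hE

theorem nbc_nn (y : U) (μ : Fin c → U) : 0 ≤ nbc Q c y μ :=
  Finset.prod_nonneg fun _ _ => hE.nb_nn _ _

theorem nbc_one {y : U} (hy : mm Q y ≠ 0) : ∑ μ, nbc Q c y μ = 1 := by
  classical
  unfold nbc
  have h := Finset.prod_univ_sum (fun _ : Fin c => (univ : Finset U)) (fun _ z => nb Q y z)
  rw [Fintype.piFinset_univ] at h
  rw [← h, Finset.prod_eq_one fun _ _ => hE.nb_one hy]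

variable {P : Ω → ℝ} {f : Ω → U} (hP : ∀ ω, 0 ≤ P ω) (hf : mar P f = mm Q)
include hP hf

theorem fam_one (ω : Ω) (h0 : P ω ≠ 0) : ∑ b, nbc Q c (f ω) b = 1 := by
  refine nbc_one hE c ?_
  rw [← hf]
  exact mar_ne_zero hP f h0

theorem fam_ent {α : Type} [Fintype α] (g : Ω → α) (k : α → U) (hk : ∀ ω, f ω = k (g ω)) :
    ent (att P f (nbc Q c)) (fun x => (g x.1, x.2)) = ent P g + c * (hQ Q - aQ Q) := by
  classical
  have h := ent_att (f := f) (K := nbc Q c) hP (fun y μ => nbc_nn hE c y μ)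
    (fam_one hE c hP hf) g k hk
  have hs : StarOk (mm Q) (fun _ : Fin c => nb Q) :=
    ⟨hE.mm_nn, by
      have := mar_total Q (fun e => e.2)
      rw [hE.mar_snd_Q, hE.tot] at this
      exact this, fun _ => hE.nb_nn, fun _ y hy => hE.nb_one hy⟩
  have e1 : mar (att P f (nbc Q c)) (fun x => (f x.1, x.2)) = M18.star (mm Q) (fun _ => nb Q) := by
    funext ⟨d, u⟩
    have h2 := mar_att (P := P) (f := f) (K := nbc Q c) f (fun d => d) (fun _ => rfl) d u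
    rw [h2, hf]
    rfl
  have e2 : ent (att P f (nbc Q c)) (fun x => (f x.1, x.2)) =
      ent (M18.star (mm Q) (fun _ : Fin c => nb Q)) (fun x => x) := by
    rw [← e1, ent_mar]
  have e3 : ∀ i : Fin c, ent (M18.star (mm Q) (fun _ : Fin c => nb Q)) (fun x => (x.1, x.2 i)) =
      hQ Q := by
    intro i
    have h3 : mar (M18.star (mm Q) (fun _ : Fin c => nb Q)) (fun x => (x.1, x.2 i)) = Q := by
      funext ⟨d, u⟩
      rw [mar_star_one hs, hE.mm_mul_nb]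
    unfold hQ ent
    rw [h3]
    simp_rw [mar_id]
  have e4 : ent P f = aQ Q := by
    unfold aQ ent
    rw [hf]
    simp_rw [mar_id]
  have e5 : ent (mm Q) (fun c => c) = aQ Q := rfl
  rw [e2, ent_star hs, Finset.sum_congr rfl fun i _ => by rw [e3 i], e4, e5] at h
  simp only [Finset.sum_const, Finset.card_univ, Fintype.card_fin, nsmul_eq_mul] at h
  linarith

theorem fam_fst {α : Type} (g : Ω → α) : mar (att P f (nbc Q c)) (fun x => g x.1) = mar P g :=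
  mar_att_fst (fam_one hE c hP hf) g

omit hE hf hP in
theorem fam_ne {x : Ω × (Fin c → U)} (h : att P f (nbc Q c) x ≠ 0) :
    P x.1 ≠ 0 ∧ ∀ i, Q (f x.1, x.2 i) ≠ 0 := by
  unfold att nbc at h
  refine ⟨left_ne_zero_of_mul h, fun i => ?_⟩
  have h1 := Finset.prod_ne_zero_iff.1 (right_ne_zero_of_mul h) i (mem_univ i)
  unfold nb at h1
  exact (div_ne_zero_iff.1 h1).1

end fam

section card

variable {Ω α : Type} [Fintype Ω] [Fintype α]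

theorem ent_le_card {P : Ω → ℝ} (hP : ∀ ω, 0 ≤ P ω) (h1 : ∑ ω, P ω = 1) (f : Ω → α) :
    ent P f ≤ Real.log (Fintype.card α) := by
  have key := ent_log_sum hP h1 f (fun _ => 1) (fun a => zero_le_one) (fun a ha => one_ne_zero)
  have h2 := key.2
  simp only [Real.log_one, mul_zero, Finset.sum_const_zero, add_zero, Finset.sum_const,
    Finset.card_univ, nsmul_eq_mul, mul_one] at h2
  exact h2

end card

section laws

variable {U : Type} [Fintype U] (Q : U × U → ℝ) (c : ℕ)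

/-- `c` more neighbours of `s1` are attached -/
noncomputable def A5 : ((((((U × U) × U) × U) × U) × U) × U) × (Fin c → U) → ℝ :=
  att (A4 Q) (fun x => x.1.1.1.1.1.1) (nbc Q c)

variable {Q} (hE : Edge Q)
include hE

theorem A4_s1 : mar (A4 Q) (fun x => x.1.1.1.1.1.1) = mm Q := by
  rw [A4_fst hE (fun x => x.1.1.1.1.1), A3_s1 hE]

theorem A5_nn (x) : 0 ≤ A5 Q c x := att_nonneg (A4_nn hE) (fun y μ => nbc_nn hE c y μ) x

theorem A5_tot : ∑ x, A5 Q c x = 1 :=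
  att_total (A4_tot hE) (fam_one hE c (A4_nn hE) (A4_s1 hE))

theorem A5_fst {α : Type} (g : (((((U × U) × U) × U) × U) × U) × U → α) :
    mar (A5 Q c) (fun x => g x.1) = mar (A4 Q) g := fam_fst hE c (A4_nn hE) (A4_s1 hE) g

theorem A5_a : 7 * hQ Q - 5 * aQ Q - h2Q Q + c * (hQ Q - aQ Q) ≤
    ent (A5 Q c) (fun x => (x.1.2, x.1.1.1.2, x.1.1.1.1.1.1.2, x.1.1.1.1.1.2, x.1.1.2, x.1.1.1.1.2, x.2)) +
    (ent (A5 Q c) (fun x => ((x.1.2, x.1.1.1.2, x.1.1.1.1.1.1.2, x.1.1.2, x.1.1.1.1.2, x.2), x.1.1.1.1.1.1.1)) -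
      ent (A5 Q c) (fun x => (x.1.2, x.1.1.1.2, x.1.1.1.1.1.1.2, x.1.1.2, x.1.1.1.1.2, x.2))) := by
  have h2 := subm (A5_nn c hE) (A := fun x => (x.1.2, x.1.1.1.2, x.1.1.1.1.1.1.2, x.1.1.1.1.1.2, x.1.1.2, x.1.1.1.1.2, x.2))
    (B := fun x => ((x.1.2, x.1.1.1.2, x.1.1.1.1.1.1.2, x.1.1.2, x.1.1.1.1.2, x.2), x.1.1.1.1.1.1.1))
    (C := fun x => x) (D := fun x => (x.1.2, x.1.1.1.2, x.1.1.1.1.1.1.2, x.1.1.2, x.1.1.1.1.2, x.2)) (fun x y => by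
      simp only [Prod.mk.injEq, Prod.ext_iff]
      tauto) (fun x y => by
      simp only [Prod.mk.injEq]
      tauto) (fun x y => by
      simp only [Prod.mk.injEq]
      tauto)
  have h3 := fam_ent hE c (A4_nn hE) (A4_s1 hE) (fun x => x) (fun x => x.1.1.1.1.1.1)
    (fun _ => rfl)
  have e : ent (A5 Q c) (fun x => x) = ent (att (A4 Q) (fun x => x.1.1.1.1.1.1) (nbc Q c))
    (fun x => (x.1, x.2)) := rfl
  rw [e, h3, A4_all hE] at h2
  linarith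

theorem A5_bc : 3 * hQ Q - 3 * aQ Q - h2Q Q + c * (hQ Q - aQ Q) -
      Real.log (Fintype.card (Fin c → U)) ≤
    ent (A5 Q c) (fun x => ((x.1.2, x.1.1.1.2, x.1.1.1.1.1.2, x.1.1.2, x.1.1.1.1.2, x.2), x.1.1.1.1.1.1.1)) -
      ent (A5 Q c) (fun x => (x.1.2, x.1.1.1.2, x.1.1.1.1.1.2, x.1.1.2, x.1.1.1.1.2, x.2)) := by
  have h1 := A4_b hE
  have h2 := A4_c hE
  have h3 := fam_ent hE c (A4_nn hE) (A4_s1 hE) (fun x => (x.2, x.1.1.2, x.1.1.1.1.2, x.1.2, x.1.1.1.2, x.1.1.1.1.1.1))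
    (fun y => y.2.2.2.2.2) (fun _ => rfl)
  have e1 : ent (A5 Q c) (fun x => ((x.1.2, x.1.1.1.2, x.1.1.1.1.1.2, x.1.1.2, x.1.1.1.1.2, x.2), x.1.1.1.1.1.1.1)) =
      ent (A5 Q c) (fun x => ((x.1.2, x.1.1.1.2, x.1.1.1.1.1.2, x.1.1.2, x.1.1.1.1.2, x.1.1.1.1.1.1.1), x.2)) := ent_same _ fun x y => by
    simp only [Prod.mk.injEq]
    tauto
  have e2 : ent (A5 Q c) (fun x => ((x.1.2, x.1.1.1.2, x.1.1.1.1.1.2, x.1.1.2, x.1.1.1.1.2, x.1.1.1.1.1.1.1), x.2)) =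
      ent (att (A4 Q) (fun x => x.1.1.1.1.1.1) (nbc Q c))
        (fun x => ((x.1.2, x.1.1.1.2, x.1.1.1.1.1.2, x.1.1.2, x.1.1.1.1.2, x.1.1.1.1.1.1.1), x.2)) := rfl
  have h4 := suba (A5_nn c hE) (A5_tot c hE) (A := fun x => x.2)
    (B := fun x => (x.1.2, x.1.1.1.2, x.1.1.1.1.1.2, x.1.1.2, x.1.1.1.1.2)) (C := fun x => (x.1.2, x.1.1.1.2, x.1.1.1.1.1.2, x.1.1.2, x.1.1.1.1.2, x.2)) (fun x y => by
      simp only [Prod.mk.injEq]
      tauto)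
  have h5 := ent_le_card (A5_nn c hE) (A5_tot c hE) (fun x => x.2)
  have h6 : ent (A5 Q c) (fun x => (x.1.2, x.1.1.1.2, x.1.1.1.1.1.2, x.1.1.2, x.1.1.1.1.2)) = ent (A4 Q) (fun x => (x.2, x.1.1.2, x.1.1.1.1.2, x.1.2, x.1.1.1.2)) := by
    have h7 := A5_fst c hE (fun x => (x.2, x.1.1.2, x.1.1.1.1.2, x.1.2, x.1.1.1.2))
    unfold ent
    rw [h7]
  rw [e1, e2, h3]
  linarith

theorem A5_ne {x} (h : A5 Q c x ≠ 0) : (Q (x.1.1.1.1.1.1.1, x.1.1.1.1.1.1.2) ≠ 0 ∧ Q (x.1.1.1.1.1.1.2, x.1.1.1.1.1.2) ≠ 0 ∧ Q (x.1.1.1.1.1.1.2, x.1.1.1.1.2) ≠ 0 ∧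
    Q (x.1.1.1.1.1.1.1, x.1.1.1.2) ≠ 0 ∧ Q (x.1.1.1.2, x.1.1.1.1.1.2) ≠ 0 ∧ Q (x.1.1.1.1.1.1.1, x.1.1.2) ≠ 0 ∧ Q (x.1.1.1.1.1.1.1, x.1.2) ≠ 0) ∧
    ∀ i, Q (x.1.1.1.1.1.1.1, x.2 i) ≠ 0 := by
  obtain ⟨h1, h2⟩ := fam_ne c
    (f := fun x : (((((U × U) × U) × U) × U) × U) × U => x.1.1.1.1.1.1) h
  exact ⟨A4_ne hE h1, h2⟩

end laws

end Vale.Agent.P050.M18C
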