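import Vale.Agent.P050.M18C.Run
import Vale.Agent.P050.M18C.Defs
import Vale.Agent.P050.M18.BouquetMain

/-!
The Moebius ladder with five rungs and one more vertex.
-/

set_option linter.unusedSectionVars false

namespace Vale.Agent.P050.M18C

open Finset Vale.Agent.P050.Cart Vale.Agent.P050.Join Vale.Agent.P050.H148 Vale.Agent.P050.H180
open Vale.Agent.P050.M18

section ue

variable {X : Type} [Fintype X] (G : SimpleGraph X)

/-- the number of directed edges -/
noncomputable def de : ℝ := ∑ q : X × X, adj G q.1 q.2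

/-- the uniform law on the directed edges -/
noncomputable def ue (a : X × X) : ℝ := adj G a.1 a.2 / de G

variable (hG : ∃ x y, G.Adj x y)
include hG

theorem de_pos : 0 < de G := by
  obtain ⟨x, y, hxy⟩ := hG
  have h1 : adj G x y = 1 := by
    unfold adj
    rw [if_pos hxy]
  have h2 : adj G x y ≤ de G :=
    Finset.single_le_sum (f := fun q : X × X => adj G q.1 q.2)
      (fun b _ => M18.adj_nn G _ _) (mem_univ (x, y))
  linarith

theorem ue_edge : Edge (ue G) where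
  nn := fun a => div_nonneg (M18.adj_nn G _ _) (de_pos G hG).le
  tot := by
    unfold ue
    rw [← Finset.sum_div]
    exact div_self (de_pos G hG).ne'
  sym := fun x y => by
    unfold ue
    simp only
    rw [M18.adj_symm G x y]

omit hG in
theorem ue_ne {a : X × X} (h : ue G a ≠ 0) : adj G a.1 a.2 = 1 :=
  adj_one G (div_ne_zero_iff.1 h).1

omit hG in
theorem ue_adj {x y : X} (h : ue G (x, y) ≠ 0) : G.Adj x y := by
  have h1 := ue_ne G h
  unfold adj at h1
  by_contra h2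
  rw [if_neg h2] at h1
  exact zero_ne_one h1

theorem ue_hQ : hQ (ue G) = Real.log (de G) := by
  have ht := de_pos G hG
  unfold hQ
  rw [ent_eq]
  have e1 : ∀ x, ue G x * Real.log (mar (ue G) (fun x => x) x) = - (ue G x * Real.log (de G)) := by
    intro x
    rw [mar_id]
    by_cases hx : ue G x = 0
    · rw [hx]; ring
    · have h1 := ue_ne G hx
      have h2 : ue G x = 1 / de G := by
        unfold ue
        rw [h1]
      rw [h2, Real.log_div one_ne_zero ht.ne', Real.log_one]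
      ring
  rw [Finset.sum_congr rfl fun x _ => e1 x, Finset.sum_neg_distrib, neg_neg, ← Finset.sum_mul,
    (ue_edge G hG).tot, one_mul]

theorem ue_aQ : aQ (ue G) ≤ Real.log (Fintype.card X) := by
  have hE := ue_edge G hG
  have key := ent_log_sum (P := ue G) hE.nn hE.tot (fun e => e.2) (fun _ => 1)
    (fun a => zero_le_one) (fun a ha => one_ne_zero)
  have h2 := key.2
  simp only [Real.log_one, mul_zero, Finset.sum_const_zero, add_zero, Finset.sum_const,
    Finset.card_univ, nsmul_eq_mul, mul_one] at h2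
  rw [hE.ent_snd] at h2
  exact h2

end ue

section hom

variable {V X : Type} [Fintype V] [DecidableEq V] [Fintype X]

/-- homomorphisms as maps -/
def homEquiv (F : SimpleGraph V) (G : SimpleGraph X) :
    (F →g G) ≃ {φ : V → X // ∀ u v, F.Adj u v → G.Adj (φ u) (φ v)} where
  toFun φ := ⟨φ, fun _ _ h => φ.map_rel h⟩
  invFun z := ⟨z.1, fun h => z.2 _ _ h⟩
  left_inv _ := rfl
  right_inv _ := rfl

open Classical in
theorem hom_card (F : SimpleGraph V) (G : SimpleGraph X) : (Nat.card (F →g G) : ℝ) =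
    ∑ φ : V → X, if (∀ u v, F.Adj u v → G.Adj (φ u) (φ v)) then (1 : ℝ) else 0 := by
  rw [Nat.card_congr (homEquiv F G), Nat.card_eq_fintype_card, Fintype.card_subtype,
    card_eq_sum_ones, sum_filter]
  push_cast
  rfl

/-- the entropy of a law on the homomorphisms -/
theorem ent_hom {Ω : Type} [Fintype Ω] {P : Ω → ℝ} (hP : ∀ ω, 0 ≤ P ω) (h1 : ∑ ω, P ω = 1)
    (F : SimpleGraph V) (G : SimpleGraph X) (φ : Ω → V → X)
    (hs : ∀ ω, P ω ≠ 0 → ∀ u v, F.Adj u v → G.Adj (φ ω u) (φ ω v)) :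
    0 < (Nat.card (F →g G) : ℝ) ∧ ent P φ ≤ Real.log (Nat.card (F →g G)) := by
  classical
  rw [hom_card]
  have key := ent_log_sum hP h1 φ
    (fun ψ => if (∀ u v, F.Adj u v → G.Adj (ψ u) (ψ v)) then (1 : ℝ) else 0)
    (fun ψ => by split_ifs <;> norm_num) (fun ω h0 => by rw [if_pos (hs ω h0)]; norm_num)
  refine ⟨key.1, ?_⟩
  have h2 : ∑ ω, P ω * Real.log (if (∀ u v, F.Adj u v → G.Adj (φ ω u) (φ ω v)) then (1 : ℝ)
      else 0) = 0 := by
    refine Finset.sum_eq_zero fun ω _ => ?_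
    by_cases h0 : P ω = 0
    · rw [h0, zero_mul]
    · rw [if_pos (hs ω h0), Real.log_one, mul_zero]
  have h3 := key.2
  rw [h2, add_zero] at h3
  exact h3

end hom

section final

variable {X : Type} [Fintype X]

/-- the rungs -/
def rungs (x0 y0 x1 y1 x2 y2 x3 y3 x4 y4 : X) : ZMod 5 → X × X :=
  (![(x0, y0), (x1, y1), (x2, y2), (x3, y3), (x4, y4)] : Fin 5 → X × X)

theorem rungs_walk (G : SimpleGraph X) {x0 y0 x1 y1 x2 y2 x3 y3 x4 y4 : X}
    (h0 : G.Adj x0 y0 ∧ G.Adj x0 y1 ∧ G.Adj x1 y0) (h1 : G.Adj x1 y1 ∧ G.Adj x1 y2 ∧ G.Adj x2 y1)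
    (h2 : G.Adj x2 y2 ∧ G.Adj x2 y3 ∧ G.Adj x3 y2) (h3 : G.Adj x3 y3 ∧ G.Adj x3 y4 ∧ G.Adj x4 y3)
    (h4 : G.Adj x4 y4 ∧ G.Adj x4 y0 ∧ G.Adj x0 y4) :
    Walk G 5 (rungs x0 y0 x1 y1 x2 y2 x3 y3 x4 y4) := by
  intro i
  fin_cases i
  · exact h0
  · exact h1
  · exact h2
  · exact h3
  · exact h4

/-- the map from the vertices -/
def cmap (w : ZMod 5 → X × X) (z : X) : Option (ZMod 5 × Bool) → X
  | none => z
  | some a => side (w a.1) a.2

theorem cmap_hom (G : SimpleGraph X) {w : ZMod 5 → X × X} (hw : Walk G 5 w) {z : X}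
    (h0 : G.Adj z (w 0).2) (h1 : G.Adj z (w 1).2) (u v : Option (ZMod 5 × Bool))
    (h : (cherryLadder 5).Adj u v) : G.Adj (cmap w z u) (cmap w z v) := by
  rcases h with ⟨a, b, hab, rfl, rfl⟩ | ⟨rfl, h⟩ | ⟨rfl, h⟩
  · exact walk_adj hw hab
  · rcases h with rfl | rfl
    · exact h0
    · exact h1
  · rcases h with rfl | rfl
    · exact h0.symm
    · exact h1.symm

/-- the vertices -/
def cvert (x : (((((((((((X × X) × X) × X) × X) × X) × X) × X) × X) × X) × X) × X)) :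
    Option (ZMod 5 × Bool) → X :=
  cmap (rungs x.1.1.1.1.1.2 x.1.1.1.2 x.1.1.1.1.1.1.1.2 x.1.1.1.1.2 x.1.1.1.1.1.1.1.1.1.1.2 x.1.1.1.1.1.1.1.1.1.2 x.2 x.1.1.1.1.1.1.1.1.2 x.1.1.2 x.1.2) x.1.1.1.1.1.1.2

theorem cvert_inj (x x' : (((((((((((X × X) × X) × X) × X) × X) × X) × X) × X) × X) × X) × X))
    (h : cvert x = cvert x') :
    ((((((x.1.1.1.1.1.2, x.1.1.1.1.1.1.1.2, x.1.1.1.1.1.1.1.1.1.1.2, x.1.1.1.1.1.1.1.1.1.2, x.1.1.1.1.1.1.2, x.1.1.1.1.1.1.1.1.2), x.1.1.1.1.2), x.1.1.1.2), x.1.1.2), x.1.2), x.2) =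
    ((((((x'.1.1.1.1.1.2, x'.1.1.1.1.1.1.1.2, x'.1.1.1.1.1.1.1.1.1.1.2, x'.1.1.1.1.1.1.1.1.1.2, x'.1.1.1.1.1.1.2, x'.1.1.1.1.1.1.1.1.2), x'.1.1.1.1.2), x'.1.1.1.2), x'.1.1.2), x'.1.2),
      x'.2) := by
  have a0 : x.1.1.1.1.1.2 = x'.1.1.1.1.1.2 := congrFun h (some (0, false))
  have b0 : x.1.1.1.2 = x'.1.1.1.2 := congrFun h (some (0, true))
  have a1 : x.1.1.1.1.1.1.1.2 = x'.1.1.1.1.1.1.1.2 := congrFun h (some (1, false))
  have b1 : x.1.1.1.1.2 = x'.1.1.1.1.2 := congrFun h (some (1, true))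
  have a2 : x.1.1.1.1.1.1.1.1.1.1.2 = x'.1.1.1.1.1.1.1.1.1.1.2 := congrFun h (some (2, false))
  have b2 : x.1.1.1.1.1.1.1.1.1.2 = x'.1.1.1.1.1.1.1.1.1.2 := congrFun h (some (2, true))
  have a3 : x.2 = x'.2 := congrFun h (some (3, false))
  have b3 : x.1.1.1.1.1.1.1.1.2 = x'.1.1.1.1.1.1.1.1.2 := congrFun h (some (3, true))
  have a4 : x.1.1.2 = x'.1.1.2 := congrFun h (some (4, false))
  have b4 : x.1.2 = x'.1.2 := congrFun h (some (4, true))
  have c : x.1.1.1.1.1.1.2 = x'.1.1.1.1.1.1.2 := congrFun h none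
  rw [a0, b0, a1, b1, a2, b2, a3, b3, a4, b4, c]

theorem cherry_log (G : SimpleGraph X) (hG : ∃ x y, G.Adj x y) :
    0 < (Nat.card (cherryLadder 5 →g G) : ℝ) ∧
    17 * Real.log (de G) - 23 * Real.log (Fintype.card X) ≤
      Real.log (Nat.card (cherryLadder 5 →g G)) := by
  classical
  have hE := ue_edge G hG
  have key := ent_hom (R5_nn hE) (R5_tot hE) (cherryLadder 5) G cvert (fun x hx u v huv => by
    obtain ⟨⟨p1, p2, p3, p4⟩, ⟨q1, q2, q3, q4⟩, ⟨r1, r2, r3⟩, ⟨s1, s2, s3⟩, ⟨t1, t2, t3⟩⟩ :=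
      R5_ne hE hx
    refine cmap_hom G (rungs_walk G ⟨?_, ?_, ?_⟩ ⟨?_, ?_, ?_⟩ ⟨?_, ?_, ?_⟩ ⟨?_, ?_, ?_⟩
      ⟨?_, ?_, ?_⟩) ?_ ?_ u v huv
    · exact (ue_adj G q1).symm
    · exact (ue_adj G p1).symm
    · exact (ue_adj G q2).symm
    · exact (ue_adj G p2).symm
    · exact ue_adj G r1
    · exact (ue_adj G p3).symm
    · exact ue_adj G r2
    · exact ue_adj G s1
    · exact ue_adj G r3
    · exact (ue_adj G s3).symm
    · exact ue_adj G t3
    · exact (ue_adj G s2).symm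
    · exact ue_adj G t2
    · exact ue_adj G q4
    · exact (ue_adj G t1).symm
    · exact (ue_adj G q3).symm
    · exact (ue_adj G p4).symm)
  refine ⟨key.1, ?_⟩
  have h1 := R5_ent hE
  have h2 := ent_mono (P := R5 (ue G)) (R5_nn hE) (f := cvert)
    (g := fun x => ((((((x.1.1.1.1.1.2, x.1.1.1.1.1.1.1.2, x.1.1.1.1.1.1.1.1.1.1.2, x.1.1.1.1.1.1.1.1.1.2, x.1.1.1.1.1.1.2, x.1.1.1.1.1.1.1.1.2), x.1.1.1.1.2), x.1.1.1.2), x.1.1.2), x.1.2), x.2))
    (fun x x' h => cvert_inj x x' h)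
  have h3 := r_nonneg hE
  have h4 := ue_hQ G hG
  have h5 := ue_aQ G hG
  rw [h4] at h1
  have h6 := key.2
  linarith

/-- the graph satisfies Sidorenko's inequality -/
theorem cherry_sidorenko [Nonempty X] (G : SimpleGraph X) :
    edgeDensity G ^ 17 ≤ homDensity (cherryLadder 5) G := by
  rcases (edge_nn G).lt_or_eq with hp | hp
  swap
  · rw [← hp, zero_pow (by norm_num)]
    exact hom_nn G _
  have hG := exists_adj G hp
  have hn := card_pos' (X := X)
  obtain ⟨h1, h2⟩ := cherry_log G hG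
  have h3 : de G = edgeDensity G * (Fintype.card X : ℝ) ^ 2 := by
    unfold de
    rw [Fintype.sum_prod_type, adj_sum']
  have hV : Nat.card (Option (ZMod 5 × Bool)) = 11 := by
    rw [Nat.card_eq_fintype_card]
    rfl
  have hpos : 0 < homDensity (cherryLadder 5) G := by
    unfold homDensity
    rw [Nat.card_eq_fintype_card (α := X)]
    positivity
  have h4 : (Nat.card (cherryLadder 5 →g G) : ℝ) =
      homDensity (cherryLadder 5) G * (Fintype.card X : ℝ) ^ 11 := by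
    unfold homDensity
    rw [hV, Nat.card_eq_fintype_card (α := X)]
    field_simp
  rw [h3, h4, Real.log_mul hp.ne' (by positivity), Real.log_mul hpos.ne' (by positivity),
    Real.log_pow, Real.log_pow] at h2
  push_cast at h2
  rw [← Real.log_le_log_iff (by positivity) hpos, Real.log_pow]
  push_cast
  linarith

end final

end Vale.Agent.P050.M18C
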