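import Vale.Agent.P050.M18C.Run2
import Vale.Agent.P050.M18C.Fin
import Vale.Agent.P050.M18C.Defs2

/-!
The Moebius ladder with five rungs and several more vertices.
-/

set_option linter.unusedSectionVars false

namespace Vale.Agent.P050.M18C

open Finset Vale.Agent.P050.Cart Vale.Agent.P050.Join Vale.Agent.P050.H148 Vale.Agent.P050.H180
open Vale.Agent.P050.M18

variable {X : Type} [Fintype X] {c : ℕ}

/-- the map from the vertices -/
def vmap (w : ZMod 5 → X × X) (z : Fin c → X) : (ZMod 5 × Bool) ⊕ Fin c → X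
  | Sum.inl a => side (w a.1) a.2
  | Sum.inr i => z i

theorem vmap_hom (G : SimpleGraph X) {w : ZMod 5 → X × X} (hw : Walk G 5 w) {z : Fin c → X}
    (h0 : ∀ i, G.Adj (z i) (w 0).2) (h1 : ∀ i, G.Adj (z i) (w 1).2) (u v : (ZMod 5 × Bool) ⊕ Fin c)
    (h : (cherries 5 c).Adj u v) : G.Adj (vmap w z u) (vmap w z v) := by
  rcases h with ⟨a, b, hab, rfl, rfl⟩ | ⟨i, rfl, h⟩ | ⟨i, rfl, h⟩
  · exact walk_adj hw hab
  · rcases h with rfl | rfl
    · exact h0 i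
    · exact h1 i
  · rcases h with rfl | rfl
    · exact (h0 i).symm
    · exact (h1 i).symm

/-- the vertices -/
def dvert (x : ((((((((((((X × X) × X) × X) × X) × X) × X) × (Fin c → X)) × X) × X) × X) × X) × X)) :
    (ZMod 5 × Bool) ⊕ Fin (c + 1) → X :=
  vmap (rungs x.1.1.1.1.1.1.2 x.1.1.1.2 x.1.1.1.1.1.1.1.1.2 x.1.1.1.1.2 x.1.1.1.1.1.1.1.1.1.1.1.2 x.1.1.1.1.1.1.1.1.1.1.2 x.2 x.1.1.1.1.1.1.1.1.1.2 x.1.1.2 x.1.2)
    (Fin.cons x.1.1.1.1.1.1.1.2 x.1.1.1.1.1.2 : Fin (c + 1) → X)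

theorem dvert_inj
    (x x' : ((((((((((((X × X) × X) × X) × X) × X) × X) × (Fin c → X)) × X) × X) × X) × X) × X))
    (h : dvert x = dvert x') :
    ((((((x.1.1.1.1.1.1.2, x.1.1.1.1.1.1.1.1.2, x.1.1.1.1.1.1.1.1.1.1.1.2, x.1.1.1.1.1.1.1.1.1.1.2, x.1.1.1.1.1.1.1.2, x.1.1.1.1.1.1.1.1.1.2, x.1.1.1.1.1.2), x.1.1.1.1.2), x.1.1.1.2), x.1.1.2), x.1.2), x.2) =
    ((((((x'.1.1.1.1.1.1.2, x'.1.1.1.1.1.1.1.1.2, x'.1.1.1.1.1.1.1.1.1.1.1.2, x'.1.1.1.1.1.1.1.1.1.1.2, x'.1.1.1.1.1.1.1.2, x'.1.1.1.1.1.1.1.1.1.2, x'.1.1.1.1.1.2), x'.1.1.1.1.2), x'.1.1.1.2), x'.1.1.2), x'.1.2),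
      x'.2) := by
  have a0 : x.1.1.1.1.1.1.2 = x'.1.1.1.1.1.1.2 := congrFun h (Sum.inl (0, false))
  have b0 : x.1.1.1.2 = x'.1.1.1.2 := congrFun h (Sum.inl (0, true))
  have a1 : x.1.1.1.1.1.1.1.1.2 = x'.1.1.1.1.1.1.1.1.2 := congrFun h (Sum.inl (1, false))
  have b1 : x.1.1.1.1.2 = x'.1.1.1.1.2 := congrFun h (Sum.inl (1, true))
  have a2 : x.1.1.1.1.1.1.1.1.1.1.1.2 = x'.1.1.1.1.1.1.1.1.1.1.1.2 := congrFun h (Sum.inl (2, false))
  have b2 : x.1.1.1.1.1.1.1.1.1.1.2 = x'.1.1.1.1.1.1.1.1.1.1.2 := congrFun h (Sum.inl (2, true))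
  have a3 : x.2 = x'.2 := congrFun h (Sum.inl (3, false))
  have b3 : x.1.1.1.1.1.1.1.1.1.2 = x'.1.1.1.1.1.1.1.1.1.2 := congrFun h (Sum.inl (3, true))
  have a4 : x.1.1.2 = x'.1.1.2 := congrFun h (Sum.inl (4, false))
  have b4 : x.1.2 = x'.1.2 := congrFun h (Sum.inl (4, true))
  have c0 : x.1.1.1.1.1.1.1.2 = x'.1.1.1.1.1.1.1.2 := congrFun h (Sum.inr 0)
  have c1 : x.1.1.1.1.1.2 = x'.1.1.1.1.1.2 := by
    funext i
    exact congrFun h (Sum.inr i.succ)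
  rw [a0, b0, a1, b1, a2, b2, a3, b3, a4, b4, c0, c1]

theorem cherries_log (c : ℕ) (G : SimpleGraph X) (hG : ∃ x y, G.Adj x y) :
    0 < (Nat.card (cherries 5 (c + 1) →g G) : ℝ) ∧
    (17 + 2 * c) * Real.log (de G) - (23 + 3 * c) * Real.log (Fintype.card X) ≤
      Real.log (Nat.card (cherries 5 (c + 1) →g G)) := by
  classical
  have hE := ue_edge G hG
  have key := ent_hom (V5_nn c hE) (V5_tot c hE) (cherries 5 (c + 1)) G dvert (fun x hx u v huv => by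
    obtain ⟨⟨p1, p2, p3, p4⟩, ⟨q1, q2, q3, q4⟩, ⟨r1, r2, r3⟩, ⟨s1, s2, s3⟩, ⟨t1, t2, t3⟩, nu⟩ :=
      V5_ne c hE hx
    refine vmap_hom G (rungs_walk G ⟨?_, ?_, ?_⟩ ⟨?_, ?_, ?_⟩ ⟨?_, ?_, ?_⟩ ⟨?_, ?_, ?_⟩
      ⟨?_, ?_, ?_⟩) ?_ ?_ u v huv
    · exact (ue_adj G q1).symm
    · exact (ue_adj G p1).symm
    · exact (ue_adj G q2).symm
    · exact (ue_adj G p2).symm
    · exact ue_adj G r1
    · exact (ue_adj G p3).symm
    · exact ue_adj G r2
    · exact ue_adj G s1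
    · exact ue_adj G r3
    · exact (ue_adj G s3).symm
    · exact ue_adj G t3
    · exact (ue_adj G s2).symm
    · exact ue_adj G t2
    · exact ue_adj G q4
    · exact (ue_adj G t1).symm
    · intro i
      refine Fin.cases ?_ (fun j => ?_) i
      · exact (ue_adj G q3).symm
      · exact (ue_adj G (nu j).2).symm
    · intro i
      refine Fin.cases ?_ (fun j => ?_) i
      · exact (ue_adj G p4).symm
      · exact (ue_adj G (nu j).1).symm)
  refine ⟨key.1, ?_⟩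
  have h1 := V5_ent c hE
  have h2 := ent_mono (P := V5 (ue G) c) (V5_nn c hE) (f := dvert)
    (g := fun x => ((((((x.1.1.1.1.1.1.2, x.1.1.1.1.1.1.1.1.2, x.1.1.1.1.1.1.1.1.1.1.1.2, x.1.1.1.1.1.1.1.1.1.1.2, x.1.1.1.1.1.1.1.2, x.1.1.1.1.1.1.1.1.1.2, x.1.1.1.1.1.2), x.1.1.1.1.2), x.1.1.1.2), x.1.1.2), x.1.2), x.2))
    (fun x x' h => dvert_inj x x' h)
  have h3 := r_nonneg hE
  have h4 := ue_hQ G hG
  have h5 := ue_aQ G hG
  have h7 : Real.log (Fintype.card (Fin c → X)) = c * Real.log (Fintype.card X) := by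
    rw [Fintype.card_fun, Fintype.card_fin]
    push_cast
    rw [Real.log_pow]
  rw [h4, h7] at h1
  have h6 := key.2
  have h8 : (c : ℝ) * aQ (ue G) ≤ c * Real.log (Fintype.card X) :=
    mul_le_mul_of_nonneg_left h5 (Nat.cast_nonneg c)
  nlinarith

/-- the graph satisfies Sidorenko's inequality -/
theorem cherries_sidorenko [Nonempty X] (c : ℕ) (G : SimpleGraph X) :
    edgeDensity G ^ (17 + 2 * c) ≤ homDensity (cherries 5 (c + 1)) G := by
  rcases (edge_nn G).lt_or_eq with hp | hp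
  swap
  · rw [← hp, zero_pow (by omega)]
    exact hom_nn G _
  have hG := exists_adj G hp
  have hn := card_pos' (X := X)
  obtain ⟨h1, h2⟩ := cherries_log c G hG
  have h3 : de G = edgeDensity G * (Fintype.card X : ℝ) ^ 2 := by
    unfold de
    rw [Fintype.sum_prod_type, adj_sum']
  have hV : Nat.card ((ZMod 5 × Bool) ⊕ Fin (c + 1)) = 11 + c := by
    rw [Nat.card_eq_fintype_card, Fintype.card_sum, Fintype.card_fin]
    have h10 : Fintype.card (ZMod 5 × Bool) = 10 := rfl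
    omega
  have hpos : 0 < homDensity (cherries 5 (c + 1)) G := by
    unfold homDensity
    rw [Nat.card_eq_fintype_card (α := X)]
    positivity
  have h4 : (Nat.card (cherries 5 (c + 1) →g G) : ℝ) =
      homDensity (cherries 5 (c + 1)) G * (Fintype.card X : ℝ) ^ (11 + c) := by
    unfold homDensity
    rw [hV, Nat.card_eq_fintype_card (α := X)]
    field_simp
  rw [h3, h4, Real.log_mul hp.ne' (by positivity), Real.log_mul hpos.ne' (by positivity),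
    Real.log_pow, Real.log_pow] at h2
  push_cast at h2
  rw [← Real.log_le_log_iff (by positivity) hpos, Real.log_pow]
  push_cast
  linarith

/-- the statement for any positive number of additional vertices -/
theorem cherries_sidorenko' [Nonempty X] (c : ℕ) (hc : 1 ≤ c) (G : SimpleGraph X) :
    edgeDensity G ^ (15 + 2 * c) ≤ homDensity (cherries 5 c) G := by
  obtain ⟨d, rfl⟩ : ∃ d, c = d + 1 := ⟨c - 1, by omega⟩
  have h := cherries_sidorenko d G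
  have e : 15 + 2 * (d + 1) = 17 + 2 * d := by ring
  rw [e]
  exact h

end Vale.Agent.P050.M18C
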