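import Vale.Agent.P050.M18.Main

/-!
Natural laws: attaching neighbours; the star with three leaves and two blocks of two 4-cycles.
-/

set_option linter.unusedSectionVars false

namespace Vale.Agent.P050.M18C

open Finset Vale.Agent.P050.Cart Vale.Agent.P050.Join Vale.Agent.P050.M18

section xat

variable {Ω Ω' γ δ : Type} [Fintype Ω] [Fintype Ω'] [Fintype γ] [Fintype δ]

/-- attach a variable with the conditional law of `y` given `c'` in the space `(Ω', P')` -/
noncomputable def xat (P : Ω → ℝ) (c : Ω → δ) (P' : Ω' → ℝ) (c' : Ω' → δ) (y : Ω' → γ) :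
    Ω × γ → ℝ := att P c (ker P' c' y)

variable {P : Ω → ℝ} {c : Ω → δ} {P' : Ω' → ℝ} {c' : Ω' → δ} (y : Ω' → γ)
  (hP : ∀ ω, 0 ≤ P ω) (hP' : ∀ ω, 0 ≤ P' ω) (hm : mar P c = mar P' c')

include hP hm in
theorem xker_one (ω : Ω) (h0 : P ω ≠ 0) : ∑ b, ker P' c' y (c ω) b = 1 := by
  refine sum_ker c' y ?_
  rw [← hm]
  exact mar_ne_zero hP c h0

include hP hP' in
theorem xat_nonneg (x) : 0 ≤ xat P c P' c' y x := att_nonneg hP (fun _ _ => ker_nonneg hP' _ _ _ _) x

include hP hm in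
theorem xat_total (h1 : ∑ ω, P ω = 1) : ∑ x, xat P c P' c' y x = 1 :=
  att_total h1 fun ω h0 => xker_one y hP hm ω h0

include hP' hm in
theorem xat_law : mar (xat P c P' c' y) (fun x => (c x.1, x.2)) = mar P' (fun ω => (c' ω, y ω)) := by
  funext ⟨d, u⟩
  have h := mar_att (P := P) (f := c) (K := ker P' c' y) c (fun d => d) (fun _ => rfl) d u
  unfold xat
  rw [h, hm]
  unfold ker
  by_cases h0 : mar P' c' d = 0
  · rw [h0]
    have := mar_fst P' c' y d
    rw [h0] at this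
    rw [(Finset.sum_eq_zero_iff_of_nonneg fun u _ => mar_nonneg hP' _ _).1 this u (mem_univ u)]
    simp
  · field_simp

include hP hP' hm in
theorem xat_ent {α : Type} [Fintype α] (g : Ω → α) (k : α → δ) (hk : ∀ ω, c ω = k (g ω)) :
    ent (xat P c P' c' y) (fun x => (g x.1, x.2)) =
      ent P g + (ent P' (fun ω => (c' ω, y ω)) - ent P' c') := by
  have h := ent_att (f := c) (K := ker P' c' y) hP (fun d b => ker_nonneg hP' c' y d b)
    (fun ω h0 => xker_one y hP hm ω h0) g k hk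
  have e1 : ent (att P c (ker P' c' y)) (fun x => (c x.1, x.2)) =
      ent P' (fun ω => (c' ω, y ω)) := by
    unfold ent
    have := xat_law y hP' hm
    unfold xat at this
    rw [this]
  have e2 : ent P c = ent P' c' := by
    unfold ent
    rw [hm]
  rw [e1, e2] at h
  unfold xat
  linarith

include hP hP' in
/-- the support -/
theorem xat_ne_zero {x : Ω × γ} (h : xat P c P' c' y x ≠ 0) :
    P x.1 ≠ 0 ∧ ∃ ω, P' ω ≠ 0 ∧ c' ω = c x.1 ∧ y ω = x.2 := by
  classical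
  unfold xat att ker at h
  have h1 := left_ne_zero_of_mul h
  have h2 := (div_ne_zero_iff.1 (right_ne_zero_of_mul h)).1
  refine ⟨h1, ?_⟩
  unfold mar at h2
  obtain ⟨ω, -, hω⟩ := Finset.exists_ne_zero_of_sum_ne_zero h2
  have h3 : (c' ω, y ω) = (c x.1, x.2) := by
    by_contra hh
    rw [if_neg hh] at hω
    exact hω rfl
  rw [if_pos h3] at hω
  simp only [Prod.mk.injEq] at h3
  exact ⟨ω, hω, h3.1, h3.2⟩

end xat

section nat

variable {U Ω : Type} [Fintype U] [Fintype Ω] {Q : U × U → ℝ} (hE : Edge Q)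
variable {P : Ω → ℝ} {f : Ω → U} (hP : ∀ ω, 0 ≤ P ω) (hf : mar P f = mm Q)

include hE hP hf

theorem nat_one (ω : Ω) (h0 : P ω ≠ 0) : ∑ b, nb Q (f ω) b = 1 := by
  refine hE.nb_one ?_
  rw [← hf]
  exact mar_ne_zero hP f h0

theorem nat_law : mar (att P f (nb Q)) (fun x => (f x.1, x.2)) = Q := by
  funext ⟨d, u⟩
  have h := mar_att (P := P) (f := f) (K := nb Q) f (fun d => d) (fun _ => rfl) d u
  rw [h, hf, hE.mm_mul_nb]

theorem nat_ent {α : Type} [Fintype α] (g : Ω → α) (k : α → U) (hk : ∀ ω, f ω = k (g ω)) :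
    ent (att P f (nb Q)) (fun x => (g x.1, x.2)) = ent P g + (hQ Q - aQ Q) := by
  have h := ent_att (f := f) (K := nb Q) hP hE.nb_nn (nat_one hE hP hf) g k hk
  have e1 : ent (att P f (nb Q)) (fun x => (f x.1, x.2)) = hQ Q := by
    unfold hQ ent
    rw [nat_law hE hP hf]
    simp_rw [mar_id]
  have e2 : ent P f = aQ Q := by
    unfold aQ ent
    rw [hf]
    simp_rw [mar_id]
  rw [e1, e2] at h
  linarith

theorem nat_fst {α : Type} (g : Ω → α) : mar (att P f (nb Q)) (fun x => g x.1) = mar P g :=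
  mar_att_fst (nat_one hE hP hf) g

theorem nat_new : mar (att P f (nb Q)) (fun x => x.2) = mm Q := by
  have h : mar (att P f (nb Q)) (fun x => x.2) =
      mar (mar (att P f (nb Q)) (fun x => (f x.1, x.2))) (fun y => y.2) := by
    funext a
    rw [mar_mar]
  rw [h, nat_law hE hP hf, hE.mar_snd_Q]

omit hf in
theorem nat_ne {x : Ω × U} (h : att P f (nb Q) x ≠ 0) : P x.1 ≠ 0 ∧ Q (f x.1, x.2) ≠ 0 := by
  unfold att nb at h
  exact ⟨left_ne_zero_of_mul h, (div_ne_zero_iff.1 (right_ne_zero_of_mul h)).1⟩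

end nat

section laws

variable {U : Type} [Fintype U] (Q : U × U → ℝ)

/-- the star with three leaves: `(((x, y), z), w)`, centre `y` -/
noncomputable def S3 : ((U × U) × U) × U → ℝ := att (C3 Q) (fun x => x.1.2) (nb Q)

/-- `s2` is attached to the star `(((s1, f1), f2), n)`: a copy of `f1` given `s1, f2` -/
noncomputable def A2 : (((U × U) × U) × U) × U → ℝ :=
  cop (S3 Q) (fun x => (x.1.1.1, x.1.2)) (fun x => x.1.1.2)

/-- a neighbour `m` of `s1` is attached -/
noncomputable def A3 : ((((U × U) × U) × U) × U) × U → ℝ :=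
  att (A2 Q) (fun x => x.1.1.1.1) (nb Q)

/-- a neighbour `s0` of `s1` is attached -/
noncomputable def A4 : (((((U × U) × U) × U) × U) × U) × U → ℝ :=
  att (A3 Q) (fun x => x.1.1.1.1.1) (nb Q)

/-- a neighbour `f2` of `f1` is attached to the star `(((s0, s1), f1), m)` -/
noncomputable def B2 : (((U × U) × U) × U) × U → ℝ := att (S3 Q) (fun x => x.1.2) (nb Q)

/-- `f0` is attached: a copy of `s1` given `s0, f1` -/
noncomputable def B3 : ((((U × U) × U) × U) × U) × U → ℝ :=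
  cop (B2 Q) (fun x => (x.1.1.1.1, x.1.1.2)) (fun x => x.1.1.1.2)

/-- the entropy of the leaves of the star -/
noncomputable def st : ℝ := ent (S3 Q) (fun x => (x.1.1.1, x.1.2, x.2))

variable {Q} (hE : Edge Q)
include hE

theorem C3_a : mar (C3 Q) (fun x => x.1.1) = mm Q := by
  have h : mar (C3 Q) (fun x => x.1.1) = mar (mar (C3 Q) (fun x => x.1)) (fun y => y.1) := by
    funext a
    rw [mar_mar]
  rw [h, hE.C3_12, hE.mar_fst_Q]

theorem C3_b : mar (C3 Q) (fun x => x.1.2) = mm Q := by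
  have h : mar (C3 Q) (fun x => x.1.2) = mar (mar (C3 Q) (fun x => x.1)) (fun y => y.2) := by
    funext a
    rw [mar_mar]
  rw [h, hE.C3_12, hE.mar_snd_Q]

theorem C3_c : mar (C3 Q) (fun x => x.2) = mm Q := by
  have h : mar (C3 Q) (fun x => x.2) = mar (mar (C3 Q) (fun x => (x.1.2, x.2))) (fun y => y.2) := by
    funext a
    rw [mar_mar]
  rw [h, hE.C3_23, hE.mar_snd_Q]

theorem C3_ent' : ent (C3 Q) (fun x => x) = 2 * hQ Q - aQ Q := by
  have h := nat_ent hE hE.nn hE.mar_snd_Q (fun e => e) (fun e => e.2) (fun _ => rfl)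
  have e : ent (C3 Q) (fun x => x) = ent (att Q (fun e => e.2) (nb Q)) (fun x => (x.1, x.2)) := rfl
  have e2 : ent Q (fun e => e) = hQ Q := rfl
  rw [e, h, e2]
  ring

theorem S3_nn (x) : 0 ≤ S3 Q x := att_nonneg hE.C3_nn hE.nb_nn x

theorem S3_tot : ∑ x, S3 Q x = 1 := att_total hE.C3_tot (nat_one hE hE.C3_nn (C3_b hE))

theorem S3_fst {α : Type} (g : (U × U) × U → α) : mar (S3 Q) (fun x => g x.1) = mar (C3 Q) g :=
  nat_fst hE hE.C3_nn (C3_b hE) g

theorem S3_ent_fst {α : Type} [Fintype α] (g : (U × U) × U → α) :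
    ent (S3 Q) (fun x => g x.1) = ent (C3 Q) g := by
  unfold ent
  rw [S3_fst hE g]

/-- the conditional entropy of the centre given two leaves -/
theorem S3_copy : ent (S3 Q) (fun x => ((x.1.1.1, x.1.2), x.1.1.2)) -
    ent (S3 Q) (fun x => (x.1.1.1, x.1.2)) = 2 * hQ Q - aQ Q - h2Q Q := by
  have h1 := S3_ent_fst hE (fun x => ((x.1.1, x.2), x.1.2))
  have h2 := S3_ent_fst hE (fun x => (x.1.1, x.2))
  have h3 : ent (C3 Q) (fun x => ((x.1.1, x.2), x.1.2)) = ent (C3 Q) (fun x => x) :=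
    ent_same _ fun x y => by
      simp only [Prod.ext_iff]
      tauto
  have h5 : ent (C3 Q) (fun x => (x.1.1, x.2)) = h2Q Q := rfl
  rw [h1, h2, h3, C3_ent' hE, h5]

/-- the leaves -/
theorem leaves (x z w : U) : mar (S3 Q) (fun x => (x.1.1.1, x.1.2, x.2)) (x, z, w) =
    ∑ y, mm Q y * (nb Q y x * nb Q y z * nb Q y w) := by
  have h1 : mar (S3 Q) (fun x => (x.1.1.1, x.1.2, x.2)) =
      mar (mar (S3 Q) (fun x => (((x.1.1.1, x.1.2, x.2)), x.1.1.2))) (fun y => y.1) := by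
    funext a
    rw [mar_mar]
  rw [h1, mar_prod_fst]
  refine Finset.sum_congr rfl fun y _ => ?_
  have h2 : mar (S3 Q) (fun x => (((x.1.1.1, x.1.2, x.2)), x.1.1.2)) ((x, z, w), y) =
      S3 Q (((x, y), z), w) := by
    have h3 := mar_inj (S3 Q) (fun x => x)
      (e := fun x : ((U × U) × U) × U => (((x.1.1.1, x.1.2, x.2)), x.1.1.2)) (fun a b h => by
        simp only [Prod.mk.injEq] at h
        exact Prod.ext (Prod.ext (Prod.ext h.1.1 h.2) h.1.2.1) h.1.2.2) (((x, y), z), w)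
    rw [mar_id] at h3
    exact h3
  rw [h2]
  have h4 : S3 Q (((x, y), z), w) = Q (x, y) * nb Q y z * nb Q y w := rfl
  rw [h4, hE.sym x y, ← hE.mm_mul_nb y x]
  ring

/-- the star made of an edge and two new neighbours of one of its ends -/
theorem star_law {Ω : Type} [Fintype Ω] {P : Ω → ℝ} {f g : Ω → U}
    (hfg : mar P (fun ω => (g ω, f ω)) = Q) :
    mar (att (att P f (nb Q)) (fun x => f x.1) (nb Q))
      (fun x => (((g x.1.1, f x.1.1), x.1.2), x.2)) = S3 Q := by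
  have h1 : mar (att P f (nb Q)) (fun x => ((g x.1, f x.1), x.2)) = C3 Q := by
    funext ⟨d, u⟩
    have h := mar_att (P := P) (f := f) (K := nb Q) (fun ω => (g ω, f ω)) (fun d => d.2)
      (fun _ => rfl) d u
    rw [h, hfg]
    rfl
  funext ⟨d, u⟩
  have h := mar_att (P := att P f (nb Q)) (f := fun x => f x.1) (K := nb Q)
    (fun x => ((g x.1, f x.1), x.2)) (fun d => d.1.2) (fun _ => rfl) d u
  rw [h, h1]
  rfl

theorem A2_nn (x) : 0 ≤ A2 Q x := cop_nonneg (S3_nn hE) _ _ x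

theorem A2_tot : ∑ x, A2 Q x = 1 := cop_total (S3_nn hE) _ _ (S3_tot hE)

theorem A2_fst {α : Type} (g : ((U × U) × U) × U → α) :
    mar (A2 Q) (fun x => g x.1) = mar (S3 Q) g := cop_fst (S3_nn hE) _ _ g

theorem A2_s1 : mar (A2 Q) (fun x => x.1.1.1.1) = mm Q := by
  rw [A2_fst hE (fun x => x.1.1.1), S3_fst hE (fun x => x.1.1), C3_a hE]

theorem A3_nn (x) : 0 ≤ A3 Q x := att_nonneg (A2_nn hE) hE.nb_nn x

theorem A3_tot : ∑ x, A3 Q x = 1 := att_total (A2_tot hE) (nat_one hE (A2_nn hE) (A2_s1 hE))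

theorem A3_fst {α : Type} (g : (((U × U) × U) × U) × U → α) :
    mar (A3 Q) (fun x => g x.1) = mar (A2 Q) g := nat_fst hE (A2_nn hE) (A2_s1 hE) g

theorem A3_s1 : mar (A3 Q) (fun x => x.1.1.1.1.1) = mm Q := by
  rw [A3_fst hE (fun x => x.1.1.1.1), A2_s1 hE]

theorem A4_nn (x) : 0 ≤ A4 Q x := att_nonneg (A3_nn hE) hE.nb_nn x

theorem A4_tot : ∑ x, A4 Q x = 1 := att_total (A3_tot hE) (nat_one hE (A3_nn hE) (A3_s1 hE))

theorem A4_fst {α : Type} (g : ((((U × U) × U) × U) × U) × U → α) :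
    mar (A4 Q) (fun x => g x.1) = mar (A3 Q) g := nat_fst hE (A3_nn hE) (A3_s1 hE) g

theorem A4_fst2 {α : Type} (g : (((U × U) × U) × U) × U → α) :
    mar (A4 Q) (fun x => g x.1.1) = mar (A2 Q) g := by
  rw [A4_fst hE (fun x => g x.1), A3_fst hE g]

theorem B2_nn (x) : 0 ≤ B2 Q x := att_nonneg (S3_nn hE) hE.nb_nn x

theorem S3_c : mar (S3 Q) (fun x => x.1.2) = mm Q := by
  rw [S3_fst hE (fun x => x.2), C3_c hE]

theorem B2_tot : ∑ x, B2 Q x = 1 := att_total (S3_tot hE) (nat_one hE (S3_nn hE) (S3_c hE))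

theorem B2_fst {α : Type} (g : ((U × U) × U) × U → α) :
    mar (B2 Q) (fun x => g x.1) = mar (S3 Q) g := nat_fst hE (S3_nn hE) (S3_c hE) g

theorem B3_nn (x) : 0 ≤ B3 Q x := cop_nonneg (B2_nn hE) _ _ x

theorem B3_tot : ∑ x, B3 Q x = 1 := cop_total (B2_nn hE) _ _ (B2_tot hE)

theorem B3_fst {α : Type} (g : (((U × U) × U) × U) × U → α) :
    mar (B3 Q) (fun x => g x.1) = mar (B2 Q) g := cop_fst (B2_nn hE) _ _ g

end laws

end Vale.Agent.P050.M18C
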