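import Vale.Agent.P050.M18C.EntB

/-!
The law on the copies of the graph.
-/

set_option linter.unusedSectionVars false

namespace Vale.Agent.P050.M18C

open Finset Vale.Agent.P050.Cart Vale.Agent.P050.Join Vale.Agent.P050.M18

variable {U : Type} [Fintype U] (Q : U × U → ℝ)

/-- attach `y1`: a copy of `s1` -/
noncomputable def R1 := cop (A4 Q) (fun x => (x.2, x.1.1.2, x.1.1.1.1.1.2, x.1.2, x.1.1.1.2)) (fun x => x.1.1.1.1.1.1)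

/-- attach `y0`: a copy of `s1` -/
noncomputable def R2 := cop (R1 Q) (fun x => (x.1.2, x.1.1.1.2, x.1.1.1.1.1.2, x.1.1.2, x.1.1.1.1.2)) (fun x => x.1.1.1.1.1.1.1)

/-- attach `x4` -/
noncomputable def R3 := xat (R2 Q) (fun x => (x.1.1.2, x.2, x.1.1.1.1.1.1.2, x.1.1.1.1.1.2)) (B3 Q) (fun x => (x.1.2, x.1.1.1.2, x.1.1.2, x.1.1.1.1.1))
  (fun x => x.2)

/-- attach `y4` -/
noncomputable def R4 := xat (R3 Q) (fun x => (x.1.1.1.2, x.2, x.1.1.1.1.1.1.1.2, x.1.1.1.1.1.1.2)) (B3 Q) (fun x => (x.1.2, x.2, x.1.1.2, x.1.1.1.1.1))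
  (fun x => x.1.1.1.2)

/-- attach `x3` -/
noncomputable def R5 := xat (R4 Q) (fun x => (x.1.2, x.2, x.1.1.1.1.1.1.1.2, x.1.1.1.1.1.1.1.1.2)) (B3 Q) (fun x => (x.2, x.1.1.1.2, x.1.1.1.1.1, x.1.1.2))
  (fun x => x.1.1.1.1.2)

variable {Q} (hE : Edge Q)
include hE

theorem leaves_sym (b c d : U) : mar (S3 Q) (fun x => (x.1.1.1, x.1.2, x.2)) (b, c, d) =
    mar (S3 Q) (fun x => (x.1.1.1, x.1.2, x.2)) (d, b, c) := by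
  rw [leaves hE, leaves hE]
  exact Finset.sum_congr rfl fun y _ => by ring

theorem A4_law (a b c d : U) : mar (A4 Q) (fun x => (x.2, x.1.1.1.1.1.1, x.1.1.1.1.2, x.1.1.1.2)) (a, b, c, d) =
    mar (S3 Q) (fun x => (x.1.1.1, x.1.2, x.2)) (b, c, d) * nb Q b a := by
  have h := mar_att (P := A3 Q) (f := fun x => x.1.1.1.1.1) (K := nb Q)
    (fun x => (x.1.1.1.1.1, x.1.1.1.2, x.1.1.2)) (fun y => y.1) (fun _ => rfl) (b, c, d) a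
  have h1 := mar_inj (A4 Q) (fun x => ((x.1.1.1.1.1.1, x.1.1.1.1.2, x.1.1.1.2), x.2))
    (e := fun y : (U × U × U) × U => (y.2, y.1.1, y.1.2.1, y.1.2.2)) (fun x y h => by
      simp only [Prod.mk.injEq] at h
      exact Prod.ext (Prod.ext h.2.1 (Prod.ext h.2.2.1 h.2.2.2)) h.1) ((b, c, d), a)
  have h2 : mar (A3 Q) (fun x => (x.1.1.1.1.1, x.1.1.1.2, x.1.1.2)) =
      mar (S3 Q) (fun x => (x.1.1.1, x.1.2, x.2)) := by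
    rw [A3_fst hE (fun x => (x.1.1.1.1, x.1.1.2, x.1.2)), A2_fst hE (fun x => (x.1.1.1, x.1.2, x.2))]
  rw [h2] at h
  exact h1.trans h

theorem B3_law (a b c d : U) : mar (B3 Q) (fun x => (x.1.2, x.1.1.1.2, x.1.1.2, x.1.1.1.1.1)) (a, b, c, d) =
    mar (S3 Q) (fun x => (x.1.1.1, x.1.2, x.2)) (d, b, c) * nb Q b a := by
  have h := mar_att (P := S3 Q) (f := fun x => x.1.2) (K := nb Q)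
    (fun x => (x.1.1.1, x.1.2, x.2)) (fun y => y.2.1) (fun _ => rfl) (d, b, c) a
  have h1 := mar_inj (B2 Q) (fun x => ((x.1.1.1.1, x.1.1.2, x.1.2), x.2))
    (e := fun y : (U × U × U) × U => (y.2, y.1.2.1, y.1.2.2, y.1.1)) (fun x y h => by
      simp only [Prod.mk.injEq] at h
      exact Prod.ext (Prod.ext h.2.2.2 (Prod.ext h.2.1 h.2.2.1)) h.1) ((d, b, c), a)
  have h2 := B3_fst hE (fun x => (x.2, x.1.1.2, x.1.2, x.1.1.1.1))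
  rw [h2]
  exact h1.trans h

theorem R1_nn (x) : 0 ≤ R1 Q x := cop_nonneg (A4_nn hE) _ _ x

theorem R1_tot : ∑ x, R1 Q x = 1 := cop_total (A4_nn hE) _ _ (A4_tot hE)

theorem R2_nn (x) : 0 ≤ R2 Q x := cop_nonneg (R1_nn hE) _ _ x

theorem R2_tot : ∑ x, R2 Q x = 1 := cop_total (R1_nn hE) _ _ (R1_tot hE)

theorem hm3 : mar (R2 Q) (fun x => (x.1.1.2, x.2, x.1.1.1.1.1.1.2, x.1.1.1.1.1.2)) = mar (B3 Q) (fun x => (x.1.2, x.1.1.1.2, x.1.1.2, x.1.1.1.1.1)) := by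
  have h := cop_law (R1_nn hE) (fun x => (x.1.2, x.1.1.1.2, x.1.1.1.1.1.2, x.1.1.2, x.1.1.1.1.2)) (fun x => x.1.1.1.1.1.1.1)
  have h1 : mar (R2 Q) (fun x => (x.1.1.2, x.2, x.1.1.1.1.1.1.2, x.1.1.1.1.1.2)) =
      mar (mar (R2 Q) (fun x => ((x.1.1.2, x.1.1.1.1.2, x.1.1.1.1.1.1.2, x.1.1.1.2, x.1.1.1.1.1.2), x.2)))
        (fun y => (y.1.1, y.2, y.1.2.2.1, y.1.2.2.2.2)) := by
    funext a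
    rw [mar_mar]
  have h2 : mar (R2 Q) (fun x => ((x.1.1.2, x.1.1.1.1.2, x.1.1.1.1.1.1.2, x.1.1.1.2, x.1.1.1.1.1.2), x.2)) =
      mar (R1 Q) (fun x => ((x.1.2, x.1.1.1.2, x.1.1.1.1.1.2, x.1.1.2, x.1.1.1.1.2), x.1.1.1.1.1.1.1)) := h
  have h3 : mar (mar (R1 Q) (fun x => ((x.1.2, x.1.1.1.2, x.1.1.1.1.1.2, x.1.1.2, x.1.1.1.1.2), x.1.1.1.1.1.1.1)))
        (fun y => (y.1.1, y.2, y.1.2.2.1, y.1.2.2.2.2)) =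
      mar (R1 Q) (fun x => (x.1.2, x.1.1.1.1.1.1.1, x.1.1.1.1.1.2, x.1.1.1.1.2)) := by
    funext a
    rw [mar_mar]
  have h4 : mar (R1 Q) (fun x => (x.1.2, x.1.1.1.1.1.1.1, x.1.1.1.1.1.2, x.1.1.1.1.2)) = mar (A4 Q) (fun x => (x.2, x.1.1.1.1.1.1, x.1.1.1.1.2, x.1.1.1.2)) :=
    cop_fst (A4_nn hE) _ _ (fun x => (x.2, x.1.1.1.1.1.1, x.1.1.1.1.2, x.1.1.1.2))
  rw [h1, h2, h3, h4]
  funext ⟨a, b, c, d⟩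
  rw [A4_law hE, B3_law hE, leaves_sym hE]

theorem R3_nn (x) : 0 ≤ R3 Q x := xat_nonneg _ (R2_nn hE) (B3_nn hE) x

theorem R3_tot : ∑ x, R3 Q x = 1 := xat_total _ (R2_nn hE) (hm3 hE) (R2_tot hE)

theorem hm4 : mar (R3 Q) (fun x => (x.1.1.1.2, x.2, x.1.1.1.1.1.1.1.2, x.1.1.1.1.1.1.2)) = mar (B3 Q) (fun x => (x.1.2, x.2, x.1.1.2, x.1.1.1.1.1)) := by
  have h : mar (R3 Q) (fun x => ((x.1.1.1.2, x.1.2, x.1.1.1.1.1.1.1.2, x.1.1.1.1.1.1.2), x.2)) =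
      mar (B3 Q) (fun x => ((x.1.2, x.1.1.1.2, x.1.1.2, x.1.1.1.1.1), x.2)) := xat_law _ (B3_nn hE) (hm3 hE)
  have h1 : mar (R3 Q) (fun x => (x.1.1.1.2, x.2, x.1.1.1.1.1.1.1.2, x.1.1.1.1.1.1.2)) =
      mar (mar (R3 Q) (fun x => ((x.1.1.1.2, x.1.2, x.1.1.1.1.1.1.1.2, x.1.1.1.1.1.1.2), x.2)))
        (fun y => (y.1.1, y.2, y.1.2.2.1, y.1.2.2.2)) := by
    funext a
    rw [mar_mar]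
  rw [h1, h]
  funext a
  rw [mar_mar]

theorem R4_nn (x) : 0 ≤ R4 Q x := xat_nonneg _ (R3_nn hE) (B3_nn hE) x

theorem R4_tot : ∑ x, R4 Q x = 1 := xat_total _ (R3_nn hE) (hm4 hE) (R3_tot hE)

theorem hm5 : mar (R4 Q) (fun x => (x.1.2, x.2, x.1.1.1.1.1.1.1.2, x.1.1.1.1.1.1.1.1.2)) = mar (B3 Q) (fun x => (x.2, x.1.1.1.2, x.1.1.1.1.1, x.1.1.2)) := by
  have h : mar (R4 Q) (fun x => ((x.1.1.1.1.2, x.1.2, x.1.1.1.1.1.1.1.1.2, x.1.1.1.1.1.1.1.2), x.2)) =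
      mar (B3 Q) (fun x => ((x.1.2, x.2, x.1.1.2, x.1.1.1.1.1), x.1.1.1.2)) := xat_law _ (B3_nn hE) (hm4 hE)
  have h1 : mar (R4 Q) (fun x => (x.1.2, x.2, x.1.1.1.1.1.1.1.2, x.1.1.1.1.1.1.1.1.2)) =
      mar (mar (R4 Q) (fun x => ((x.1.1.1.1.2, x.1.2, x.1.1.1.1.1.1.1.1.2, x.1.1.1.1.1.1.1.2), x.2)))
        (fun y => (y.1.2.1, y.2, y.1.2.2.2, y.1.2.2.1)) := by
    funext a
    rw [mar_mar]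
  rw [h1, h]
  funext a
  rw [mar_mar]

theorem R5_nn (x) : 0 ≤ R5 Q x := xat_nonneg _ (R4_nn hE) (B3_nn hE) x

theorem R5_tot : ∑ x, R5 Q x = 1 := xat_total _ (R4_nn hE) (hm5 hE) (R4_tot hE)

/-- the entropy of the law -/
theorem R5_ent : 17 * hQ Q - 15 * aQ Q - 4 * h2Q Q ≤ ent (R5 Q)
    (fun x => ((((((x.1.1.1.1.1.2, x.1.1.1.1.1.1.1.2, x.1.1.1.1.1.1.1.1.1.1.2, x.1.1.1.1.1.1.1.1.1.2, x.1.1.1.1.1.1.2, x.1.1.1.1.1.1.1.1.2), x.1.1.1.1.2), x.1.1.1.2), x.1.1.2), x.1.2), x.2)) := by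
  have h1 : ent (R1 Q) (fun x => ((x.1.2, x.1.1.1.2, x.1.1.1.1.1.1.2, x.1.1.1.1.1.2, x.1.1.2, x.1.1.1.1.2), x.2)) =
      ent (A4 Q) (fun x => (x.2, x.1.1.2, x.1.1.1.1.1.2, x.1.1.1.1.2, x.1.2, x.1.1.1.2)) +
        (ent (A4 Q) (fun x => ((x.2, x.1.1.2, x.1.1.1.1.1.2, x.1.2, x.1.1.1.2), x.1.1.1.1.1.1)) - ent (A4 Q) (fun x => (x.2, x.1.1.2, x.1.1.1.1.1.2, x.1.2, x.1.1.1.2))) :=
    cop_ent (A4_nn hE) _ _ (fun x => (x.2, x.1.1.2, x.1.1.1.1.1.2, x.1.1.1.1.2, x.1.2, x.1.1.1.2))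
      (fun y => (y.1, y.2.1, y.2.2.1, y.2.2.2.2.1, y.2.2.2.2.2)) (fun _ => rfl)
  have h2 : ent (R2 Q) (fun x => (((x.1.1.2, x.1.1.1.1.2, x.1.1.1.1.1.1.1.2, x.1.1.1.1.1.1.2, x.1.1.1.2, x.1.1.1.1.1.2), x.1.2), x.2)) =
      ent (R1 Q) (fun x => ((x.1.2, x.1.1.1.2, x.1.1.1.1.1.1.2, x.1.1.1.1.1.2, x.1.1.2, x.1.1.1.1.2), x.2)) +
        (ent (R1 Q) (fun x => ((x.1.2, x.1.1.1.2, x.1.1.1.1.1.2, x.1.1.2, x.1.1.1.1.2), x.1.1.1.1.1.1.1)) - ent (R1 Q) (fun x => (x.1.2, x.1.1.1.2, x.1.1.1.1.1.2, x.1.1.2, x.1.1.1.1.2))) :=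
    cop_ent (R1_nn hE) _ _ (fun x => ((x.1.2, x.1.1.1.2, x.1.1.1.1.1.1.2, x.1.1.1.1.1.2, x.1.1.2, x.1.1.1.1.2), x.2))
      (fun y => (y.1.1, y.1.2.1, y.1.2.2.2.1, y.1.2.2.2.2.1, y.1.2.2.2.2.2)) (fun _ => rfl)
  have h2a : ent (R1 Q) (fun x => ((x.1.2, x.1.1.1.2, x.1.1.1.1.1.2, x.1.1.2, x.1.1.1.1.2), x.1.1.1.1.1.1.1)) =
      ent (A4 Q) (fun x => ((x.2, x.1.1.2, x.1.1.1.1.2, x.1.2, x.1.1.1.2), x.1.1.1.1.1.1)) :=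
    cop_ent_fst (A4_nn hE) _ _ (fun x => ((x.2, x.1.1.2, x.1.1.1.1.2, x.1.2, x.1.1.1.2), x.1.1.1.1.1.1))
  have h2b : ent (R1 Q) (fun x => (x.1.2, x.1.1.1.2, x.1.1.1.1.1.2, x.1.1.2, x.1.1.1.1.2)) =
      ent (A4 Q) (fun x => (x.2, x.1.1.2, x.1.1.1.1.2, x.1.2, x.1.1.1.2)) :=
    cop_ent_fst (A4_nn hE) _ _ (fun x => (x.2, x.1.1.2, x.1.1.1.1.2, x.1.2, x.1.1.1.2))
  have h3 : ent (R3 Q) (fun x => ((((x.1.1.1.2, x.1.1.1.1.1.2, x.1.1.1.1.1.1.1.1.2, x.1.1.1.1.1.1.1.2, x.1.1.1.1.2, x.1.1.1.1.1.1.2), x.1.1.2), x.1.2), x.2)) =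
      ent (R2 Q) (fun x => (((x.1.1.2, x.1.1.1.1.2, x.1.1.1.1.1.1.1.2, x.1.1.1.1.1.1.2, x.1.1.1.2, x.1.1.1.1.1.2), x.1.2), x.2)) +
        (ent (B3 Q) (fun x => ((x.1.2, x.1.1.1.2, x.1.1.2, x.1.1.1.1.1), x.2)) - ent (B3 Q) (fun x => (x.1.2, x.1.1.1.2, x.1.1.2, x.1.1.1.1.1))) :=
    xat_ent _ (R2_nn hE) (B3_nn hE) (hm3 hE) (fun x => (((x.1.1.2, x.1.1.1.1.2, x.1.1.1.1.1.1.1.2, x.1.1.1.1.1.1.2, x.1.1.1.2, x.1.1.1.1.1.2), x.1.2), x.2))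
      (fun y => (y.1.1.1, y.2, y.1.1.2.2.2.1, y.1.1.2.2.2.2.2)) (fun _ => rfl)
  have h4 : ent (R4 Q) (fun x => (((((x.1.1.1.1.2, x.1.1.1.1.1.1.2, x.1.1.1.1.1.1.1.1.1.2, x.1.1.1.1.1.1.1.1.2, x.1.1.1.1.1.2, x.1.1.1.1.1.1.1.2), x.1.1.1.2), x.1.1.2), x.1.2), x.2)) =
      ent (R3 Q) (fun x => ((((x.1.1.1.2, x.1.1.1.1.1.2, x.1.1.1.1.1.1.1.1.2, x.1.1.1.1.1.1.1.2, x.1.1.1.1.2, x.1.1.1.1.1.1.2), x.1.1.2), x.1.2), x.2)) +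
        (ent (B3 Q) (fun x => ((x.1.2, x.2, x.1.1.2, x.1.1.1.1.1), x.1.1.1.2)) - ent (B3 Q) (fun x => (x.1.2, x.2, x.1.1.2, x.1.1.1.1.1))) :=
    xat_ent _ (R3_nn hE) (B3_nn hE) (hm4 hE)
      (fun x => ((((x.1.1.1.2, x.1.1.1.1.1.2, x.1.1.1.1.1.1.1.1.2, x.1.1.1.1.1.1.1.2, x.1.1.1.1.2, x.1.1.1.1.1.1.2), x.1.1.2), x.1.2), x.2))
      (fun y => (y.1.1.1.1, y.2, y.1.1.1.2.2.2.1, y.1.1.1.2.2.2.2.2)) (fun _ => rfl)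
  have h5 : ent (R5 Q)
      (fun x => ((((((x.1.1.1.1.1.2, x.1.1.1.1.1.1.1.2, x.1.1.1.1.1.1.1.1.1.1.2, x.1.1.1.1.1.1.1.1.1.2, x.1.1.1.1.1.1.2, x.1.1.1.1.1.1.1.1.2), x.1.1.1.1.2), x.1.1.1.2), x.1.1.2), x.1.2), x.2)) =
      ent (R4 Q) (fun x => (((((x.1.1.1.1.2, x.1.1.1.1.1.1.2, x.1.1.1.1.1.1.1.1.1.2, x.1.1.1.1.1.1.1.1.2, x.1.1.1.1.1.2, x.1.1.1.1.1.1.1.2), x.1.1.1.2), x.1.1.2), x.1.2), x.2)) +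
        (ent (B3 Q) (fun x => ((x.2, x.1.1.1.2, x.1.1.1.1.1, x.1.1.2), x.1.1.1.1.2)) - ent (B3 Q) (fun x => (x.2, x.1.1.1.2, x.1.1.1.1.1, x.1.1.2))) :=
    xat_ent _ (R4_nn hE) (B3_nn hE) (hm5 hE)
      (fun x => (((((x.1.1.1.1.2, x.1.1.1.1.1.1.2, x.1.1.1.1.1.1.1.1.1.2, x.1.1.1.1.1.1.1.1.2, x.1.1.1.1.1.2, x.1.1.1.1.1.1.1.2), x.1.1.1.2), x.1.1.2), x.1.2), x.2))
      (fun y => (y.1.2, y.2, y.1.1.1.1.2.2.2.2.2, y.1.1.1.1.2.2.2.1)) (fun _ => rfl)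
  have g1 := A4_a hE
  have g2 := A4_bc hE
  have g3 := B3_4 hE
  have g4 := B3_5 hE
  have g5 := B3_6 hE
  rw [h5, h4, h3, h2, h2a, h2b, h1]
  linarith

section support

omit hE in
theorem C3_ne (hE : Edge Q) {x} (h : C3 Q x ≠ 0) : Q (x.1.1, x.1.2) ≠ 0 ∧ Q (x.1.2, x.2) ≠ 0 :=
  nat_ne hE hE.nn (f := fun e : U × U => e.2) h

theorem S3_ne {x} (h : S3 Q x ≠ 0) : Q (x.1.1.1, x.1.1.2) ≠ 0 ∧ Q (x.1.1.2, x.1.2) ≠ 0 ∧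
    Q (x.1.1.2, x.2) ≠ 0 := by
  obtain ⟨h1, h2⟩ := nat_ne hE hE.C3_nn (f := fun x : (U × U) × U => x.1.2) h
  obtain ⟨h3, h4⟩ := C3_ne hE h1
  exact ⟨h3, h4, h2⟩

theorem A4_ne {x} (h : A4 Q x ≠ 0) : Q (x.1.1.1.1.1.1, x.1.1.1.1.1.2) ≠ 0 ∧ Q (x.1.1.1.1.1.2, x.1.1.1.1.2) ≠ 0 ∧ Q (x.1.1.1.1.1.2, x.1.1.1.2) ≠ 0 ∧
    Q (x.1.1.1.1.1.1, x.1.1.2) ≠ 0 ∧ Q (x.1.1.2, x.1.1.1.1.2) ≠ 0 ∧ Q (x.1.1.1.1.1.1, x.1.2) ≠ 0 ∧ Q (x.1.1.1.1.1.1, x.2) ≠ 0 := by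
  obtain ⟨h1, h2⟩ := nat_ne hE (A3_nn hE) (f := fun x : ((((U × U) × U) × U) × U) × U => x.1.1.1.1.1) h
  obtain ⟨h3, h4⟩ := nat_ne hE (A2_nn hE) (f := fun x : (((U × U) × U) × U) × U => x.1.1.1.1) h1
  obtain ⟨h5, ω, h6, h7, h8⟩ := cop_ne_zero (S3_nn hE) (fun x => (x.1.1.1, x.1.2))
    (fun x => x.1.1.2) h3
  obtain ⟨k1, k2, k3⟩ := S3_ne hE h5
  obtain ⟨l1, l2, l3⟩ := S3_ne hE h6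
  simp only [Prod.mk.injEq] at h7
  rw [h7.1, h8] at l1
  rw [h7.2, h8] at l2
  exact ⟨k1, k2, k3, l1, l2, h4, h2⟩

theorem B3_ne {x} (h : B3 Q x ≠ 0) : Q (x.1.1.1.1.1, x.1.1.1.1.2) ≠ 0 ∧ Q (x.1.1.1.1.2, x.1.1.1.2) ≠ 0 ∧ Q (x.1.1.1.1.2, x.1.1.2) ≠ 0 ∧
    Q (x.1.1.1.2, x.1.2) ≠ 0 ∧ Q (x.1.1.1.1.1, x.2) ≠ 0 ∧ Q (x.2, x.1.1.1.2) ≠ 0 := by
  obtain ⟨h5, ω, h6, h7, h8⟩ := cop_ne_zero (B2_nn hE) (fun x => (x.1.1.1.1, x.1.1.2))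
    (fun x => x.1.1.1.2) h
  obtain ⟨h3, h4⟩ := nat_ne hE (S3_nn hE) (f := fun x : ((U × U) × U) × U => x.1.2) h5
  obtain ⟨h3', h4'⟩ := nat_ne hE (S3_nn hE) (f := fun x : ((U × U) × U) × U => x.1.2) h6
  obtain ⟨k1, k2, k3⟩ := S3_ne hE h3
  obtain ⟨l1, l2, l3⟩ := S3_ne hE h3'
  simp only [Prod.mk.injEq] at h7
  rw [h7.1, h8] at l1
  rw [h7.2, h8] at l2
  exact ⟨k1, k2, k3, h4, l1, l2⟩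

/-- the support of the law: `x0 = s0`, `x1 = s2`, `x2 = f1`, `y2 = f2`, `y3 = n`, `z = m` -/
theorem R5_ne {x} (h : R5 Q x ≠ 0) :
    (Q (x.1.1.1.1.2, x.1.1.1.1.1.2) ≠ 0 ∧ Q (x.1.1.1.1.2, x.1.1.1.1.1.1.1.2) ≠ 0 ∧ Q (x.1.1.1.1.2, x.1.1.1.1.1.1.1.1.1.1.2) ≠ 0 ∧ Q (x.1.1.1.1.2, x.1.1.1.1.1.1.2) ≠ 0) ∧
    (Q (x.1.1.1.2, x.1.1.1.1.1.2) ≠ 0 ∧ Q (x.1.1.1.2, x.1.1.1.1.1.1.1.2) ≠ 0 ∧ Q (x.1.1.1.2, x.1.1.1.1.1.1.2) ≠ 0 ∧ Q (x.1.1.2, x.1.1.1.2) ≠ 0) ∧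
    (Q (x.1.1.1.1.1.1.1.2, x.1.1.1.1.1.1.1.1.1.2) ≠ 0 ∧ Q (x.1.1.1.1.1.1.1.1.1.1.2, x.1.1.1.1.1.1.1.1.1.2) ≠ 0 ∧ Q (x.2, x.1.1.1.1.1.1.1.1.1.2) ≠ 0) ∧
    (Q (x.1.1.1.1.1.1.1.1.1.1.2, x.1.1.1.1.1.1.1.1.2) ≠ 0 ∧ Q (x.1.1.1.1.1.1.1.1.2, x.1.1.2) ≠ 0 ∧ Q (x.1.1.1.1.1.1.1.1.2, x.2) ≠ 0) ∧
    (Q (x.1.2, x.1.1.1.1.1.2) ≠ 0 ∧ Q (x.1.1.2, x.1.2) ≠ 0 ∧ Q (x.2, x.1.2) ≠ 0) := by
  obtain ⟨a5, w5, b5, c5, d5⟩ := xat_ne_zero _ (R4_nn hE) (B3_nn hE) h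
  obtain ⟨a4, w4, b4, c4, d4⟩ := xat_ne_zero _ (R3_nn hE) (B3_nn hE) a5
  obtain ⟨a3, w3, b3, c3, d3⟩ := xat_ne_zero _ (R2_nn hE) (B3_nn hE) a4
  obtain ⟨a2, w2, b2, c2, d2⟩ := cop_ne_zero (R1_nn hE) _ _ a3
  obtain ⟨a1, w1, b1, c1, d1⟩ := cop_ne_zero (A4_nn hE) _ _ a2
  obtain ⟨a0, -⟩ := cop_ne_zero (A4_nn hE) _ _ b2
  simp only [Prod.mk.injEq] at c5 c4 c3 c2 c1
  obtain ⟨e1, e2, e3, e4, e5⟩ := c1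
  obtain ⟨f1, f2, f3, f4, f5⟩ := c2
  obtain ⟨g1, g2, g3, g4⟩ := c3
  obtain ⟨i1, i2, i3, i4⟩ := c4
  obtain ⟨j1, j2, j3, j4⟩ := c5
  obtain ⟨A1, A2, A3, A4, A5, A6, A7⟩ := A4_ne hE a1
  obtain ⟨B1, B2, B3, B4, B5, B6, B7⟩ := A4_ne hE b1
  obtain ⟨C1, C2, C3, C4, C5, C6, C7⟩ := A4_ne hE a0
  obtain ⟨D1, D2, D3, D4, D5, D6⟩ := B3_ne hE b3
  obtain ⟨E1, E2, E3, E4, E5, E6⟩ := B3_ne hE b4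
  obtain ⟨F1, F2, F3, F4, F5, F6⟩ := B3_ne hE b5
  rw [e1, d1] at B7
  rw [e2, d1] at B4
  rw [e3, d1] at B1
  rw [e4, d1] at B6
  rw [f1, d2] at C7
  rw [f2, d2] at C4
  rw [f4, d2] at C6
  rw [g4, d3] at D5
  rw [g2, d3] at D6
  rw [i1, d4] at E4
  rw [i2, d4] at E6
  rw [j3, d5] at F1
  rw [j2, d5] at F2
  rw [j4, d5] at F3
  exact ⟨⟨B7, B4, B1, B6⟩, ⟨C7, C4, C6, D6⟩, ⟨A5, A2, F3⟩, ⟨A3, D5, F1⟩, ⟨E4, E6, F2⟩⟩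

end support

end Vale.Agent.P050.M18C
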