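import Vale.Agent.P050.M18C.Fam

/-!
The law on the copies of the graph with several additional vertices.
-/

set_option linter.unusedSectionVars false

namespace Vale.Agent.P050.M18C

open Finset Vale.Agent.P050.Cart Vale.Agent.P050.Join Vale.Agent.P050.M18

variable {U : Type} [Fintype U] (Q : U × U → ℝ) (c : ℕ)

/-- attach `y1`: a copy of `s1` -/
noncomputable def V1 := cop (A5 Q c) (fun x => (x.1.2, x.1.1.1.2, x.1.1.1.1.1.1.2, x.1.1.2, x.1.1.1.1.2, x.2)) (fun x => x.1.1.1.1.1.1.1)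

/-- attach `y0`: a copy of `s1` -/
noncomputable def V2 := cop (V1 Q c) (fun x => (x.1.1.2, x.1.1.1.1.2, x.1.1.1.1.1.1.2, x.1.1.1.2, x.1.1.1.1.1.2, x.1.2)) (fun x => x.1.1.1.1.1.1.1.1)

/-- attach `x4` -/
noncomputable def V3 := xat (V2 Q c) (fun x => (x.1.1.1.2, x.2, x.1.1.1.1.1.1.1.2, x.1.1.1.1.1.1.2)) (B3 Q) (fun x => (x.1.2, x.1.1.1.2, x.1.1.2, x.1.1.1.1.1))
  (fun x => x.2)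

/-- attach `y4` -/
noncomputable def V4 := xat (V3 Q c) (fun x => (x.1.1.1.1.2, x.2, x.1.1.1.1.1.1.1.1.2, x.1.1.1.1.1.1.1.2)) (B3 Q) (fun x => (x.1.2, x.2, x.1.1.2, x.1.1.1.1.1))
  (fun x => x.1.1.1.2)

/-- attach `x3` -/
noncomputable def V5 := xat (V4 Q c) (fun x => (x.1.2, x.2, x.1.1.1.1.1.1.1.1.2, x.1.1.1.1.1.1.1.1.1.2)) (B3 Q) (fun x => (x.2, x.1.1.1.2, x.1.1.1.1.1, x.1.1.2))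
  (fun x => x.1.1.1.1.2)

variable {Q} (hE : Edge Q)
include hE

theorem V1_nn (x) : 0 ≤ V1 Q c x := cop_nonneg (A5_nn c hE) _ _ x

theorem V1_tot : ∑ x, V1 Q c x = 1 := cop_total (A5_nn c hE) _ _ (A5_tot c hE)

theorem V2_nn (x) : 0 ≤ V2 Q c x := cop_nonneg (V1_nn c hE) _ _ x

theorem V2_tot : ∑ x, V2 Q c x = 1 := cop_total (V1_nn c hE) _ _ (V1_tot c hE)

theorem vm3 : mar (V2 Q c) (fun x => (x.1.1.1.2, x.2, x.1.1.1.1.1.1.1.2, x.1.1.1.1.1.1.2)) = mar (B3 Q) (fun x => (x.1.2, x.1.1.1.2, x.1.1.2, x.1.1.1.1.1)) := by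
  have h := cop_law (V1_nn c hE) (fun x => (x.1.1.2, x.1.1.1.1.2, x.1.1.1.1.1.1.2, x.1.1.1.2, x.1.1.1.1.1.2, x.1.2)) (fun x => x.1.1.1.1.1.1.1.1)
  have h1 : mar (V2 Q c) (fun x => (x.1.1.1.2, x.2, x.1.1.1.1.1.1.1.2, x.1.1.1.1.1.1.2)) =
      mar (mar (V2 Q c) (fun x => ((x.1.1.1.2, x.1.1.1.1.1.2, x.1.1.1.1.1.1.1.2, x.1.1.1.1.2, x.1.1.1.1.1.1.2, x.1.1.2), x.2)))
        (fun y => (y.1.1, y.2, y.1.2.2.1, y.1.2.2.2.2.1)) := by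
    funext a
    rw [mar_mar]
  have h2 : mar (V2 Q c) (fun x => ((x.1.1.1.2, x.1.1.1.1.1.2, x.1.1.1.1.1.1.1.2, x.1.1.1.1.2, x.1.1.1.1.1.1.2, x.1.1.2), x.2)) =
      mar (V1 Q c) (fun x => ((x.1.1.2, x.1.1.1.1.2, x.1.1.1.1.1.1.2, x.1.1.1.2, x.1.1.1.1.1.2, x.1.2), x.1.1.1.1.1.1.1.1)) := h
  have h3 : mar (mar (V1 Q c) (fun x => ((x.1.1.2, x.1.1.1.1.2, x.1.1.1.1.1.1.2, x.1.1.1.2, x.1.1.1.1.1.2, x.1.2), x.1.1.1.1.1.1.1.1)))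
        (fun y => (y.1.1, y.2, y.1.2.2.1, y.1.2.2.2.2.1)) =
      mar (V1 Q c) (fun x => (x.1.1.2, x.1.1.1.1.1.1.1.1, x.1.1.1.1.1.1.2, x.1.1.1.1.1.2)) := by
    funext a
    rw [mar_mar]
  have h4 : mar (V1 Q c) (fun x => (x.1.1.2, x.1.1.1.1.1.1.1.1, x.1.1.1.1.1.1.2, x.1.1.1.1.1.2)) = mar (A5 Q c) (fun x => (x.1.2, x.1.1.1.1.1.1.1, x.1.1.1.1.1.2, x.1.1.1.1.2)) :=
    cop_fst (A5_nn c hE) _ _ (fun x => (x.1.2, x.1.1.1.1.1.1.1, x.1.1.1.1.1.2, x.1.1.1.1.2))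
  have h5 : mar (A5 Q c) (fun x => (x.1.2, x.1.1.1.1.1.1.1, x.1.1.1.1.1.2, x.1.1.1.1.2)) = mar (A4 Q) (fun x => (x.2, x.1.1.1.1.1.1, x.1.1.1.1.2, x.1.1.1.2)) :=
    A5_fst c hE (fun x => (x.2, x.1.1.1.1.1.1, x.1.1.1.1.2, x.1.1.1.2))
  rw [h1, h2, h3, h4, h5]
  funext ⟨a, b, e, d⟩
  rw [A4_law hE, B3_law hE, leaves_sym hE]

theorem V3_nn (x) : 0 ≤ V3 Q c x := xat_nonneg _ (V2_nn c hE) (B3_nn hE) x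

theorem V3_tot : ∑ x, V3 Q c x = 1 := xat_total _ (V2_nn c hE) (vm3 c hE) (V2_tot c hE)

theorem vm4 : mar (V3 Q c) (fun x => (x.1.1.1.1.2, x.2, x.1.1.1.1.1.1.1.1.2, x.1.1.1.1.1.1.1.2)) = mar (B3 Q) (fun x => (x.1.2, x.2, x.1.1.2, x.1.1.1.1.1)) := by
  have h : mar (V3 Q c) (fun x => ((x.1.1.1.1.2, x.1.2, x.1.1.1.1.1.1.1.1.2, x.1.1.1.1.1.1.1.2), x.2)) =
      mar (B3 Q) (fun x => ((x.1.2, x.1.1.1.2, x.1.1.2, x.1.1.1.1.1), x.2)) := xat_law _ (B3_nn hE) (vm3 c hE)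
  have h1 : mar (V3 Q c) (fun x => (x.1.1.1.1.2, x.2, x.1.1.1.1.1.1.1.1.2, x.1.1.1.1.1.1.1.2)) =
      mar (mar (V3 Q c) (fun x => ((x.1.1.1.1.2, x.1.2, x.1.1.1.1.1.1.1.1.2, x.1.1.1.1.1.1.1.2), x.2)))
        (fun y => (y.1.1, y.2, y.1.2.2.1, y.1.2.2.2)) := by
    funext a
    rw [mar_mar]
  rw [h1, h]
  funext a
  rw [mar_mar]

theorem V4_nn (x) : 0 ≤ V4 Q c x := xat_nonneg _ (V3_nn c hE) (B3_nn hE) x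

theorem V4_tot : ∑ x, V4 Q c x = 1 := xat_total _ (V3_nn c hE) (vm4 c hE) (V3_tot c hE)

theorem vm5 : mar (V4 Q c) (fun x => (x.1.2, x.2, x.1.1.1.1.1.1.1.1.2, x.1.1.1.1.1.1.1.1.1.2)) = mar (B3 Q) (fun x => (x.2, x.1.1.1.2, x.1.1.1.1.1, x.1.1.2)) := by
  have h : mar (V4 Q c) (fun x => ((x.1.1.1.1.1.2, x.1.2, x.1.1.1.1.1.1.1.1.1.2, x.1.1.1.1.1.1.1.1.2), x.2)) =
      mar (B3 Q) (fun x => ((x.1.2, x.2, x.1.1.2, x.1.1.1.1.1), x.1.1.1.2)) := xat_law _ (B3_nn hE) (vm4 c hE)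
  have h1 : mar (V4 Q c) (fun x => (x.1.2, x.2, x.1.1.1.1.1.1.1.1.2, x.1.1.1.1.1.1.1.1.1.2)) =
      mar (mar (V4 Q c) (fun x => ((x.1.1.1.1.1.2, x.1.2, x.1.1.1.1.1.1.1.1.1.2, x.1.1.1.1.1.1.1.1.2), x.2)))
        (fun y => (y.1.2.1, y.2, y.1.2.2.2, y.1.2.2.1)) := by
    funext a
    rw [mar_mar]
  rw [h1, h]
  funext a
  rw [mar_mar]

theorem V5_nn (x) : 0 ≤ V5 Q c x := xat_nonneg _ (V4_nn c hE) (B3_nn hE) x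

theorem V5_tot : ∑ x, V5 Q c x = 1 := xat_total _ (V4_nn c hE) (vm5 c hE) (V4_tot c hE)

/-- the entropy of the law -/
theorem V5_ent : 17 * hQ Q - 15 * aQ Q - 4 * h2Q Q + 2 * c * (hQ Q - aQ Q) -
    Real.log (Fintype.card (Fin c → U)) ≤ ent (V5 Q c)
    (fun x => ((((((x.1.1.1.1.1.1.2, x.1.1.1.1.1.1.1.1.2, x.1.1.1.1.1.1.1.1.1.1.1.2, x.1.1.1.1.1.1.1.1.1.1.2, x.1.1.1.1.1.1.1.2, x.1.1.1.1.1.1.1.1.1.2, x.1.1.1.1.1.2), x.1.1.1.1.2), x.1.1.1.2), x.1.1.2), x.1.2), x.2)) := by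
  have h1 : ent (V1 Q c) (fun x => ((x.1.1.2, x.1.1.1.1.2, x.1.1.1.1.1.1.1.2, x.1.1.1.1.1.1.2, x.1.1.1.2, x.1.1.1.1.1.2, x.1.2), x.2)) =
      ent (A5 Q c) (fun x => (x.1.2, x.1.1.1.2, x.1.1.1.1.1.1.2, x.1.1.1.1.1.2, x.1.1.2, x.1.1.1.1.2, x.2)) +
        (ent (A5 Q c) (fun x => ((x.1.2, x.1.1.1.2, x.1.1.1.1.1.1.2, x.1.1.2, x.1.1.1.1.2, x.2), x.1.1.1.1.1.1.1)) -
          ent (A5 Q c) (fun x => (x.1.2, x.1.1.1.2, x.1.1.1.1.1.1.2, x.1.1.2, x.1.1.1.1.2, x.2))) :=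
    cop_ent (A5_nn c hE) _ _ (fun x => (x.1.2, x.1.1.1.2, x.1.1.1.1.1.1.2, x.1.1.1.1.1.2, x.1.1.2, x.1.1.1.1.2, x.2))
      (fun y => (y.1, y.2.1, y.2.2.1, y.2.2.2.2.1, y.2.2.2.2.2.1, y.2.2.2.2.2.2)) (fun _ => rfl)
  have h2 : ent (V2 Q c) (fun x => (((x.1.1.1.2, x.1.1.1.1.1.2, x.1.1.1.1.1.1.1.1.2, x.1.1.1.1.1.1.1.2, x.1.1.1.1.2, x.1.1.1.1.1.1.2, x.1.1.2), x.1.2), x.2)) =
      ent (V1 Q c) (fun x => ((x.1.1.2, x.1.1.1.1.2, x.1.1.1.1.1.1.1.2, x.1.1.1.1.1.1.2, x.1.1.1.2, x.1.1.1.1.1.2, x.1.2), x.2)) +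
        (ent (V1 Q c) (fun x => ((x.1.1.2, x.1.1.1.1.2, x.1.1.1.1.1.1.2, x.1.1.1.2, x.1.1.1.1.1.2, x.1.2), x.1.1.1.1.1.1.1.1)) -
          ent (V1 Q c) (fun x => (x.1.1.2, x.1.1.1.1.2, x.1.1.1.1.1.1.2, x.1.1.1.2, x.1.1.1.1.1.2, x.1.2))) :=
    cop_ent (V1_nn c hE) _ _ (fun x => ((x.1.1.2, x.1.1.1.1.2, x.1.1.1.1.1.1.1.2, x.1.1.1.1.1.1.2, x.1.1.1.2, x.1.1.1.1.1.2, x.1.2), x.2))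
      (fun y => (y.1.1, y.1.2.1, y.1.2.2.2.1, y.1.2.2.2.2.1, y.1.2.2.2.2.2.1, y.1.2.2.2.2.2.2))
      (fun _ => rfl)
  have h2a : ent (V1 Q c) (fun x => ((x.1.1.2, x.1.1.1.1.2, x.1.1.1.1.1.1.2, x.1.1.1.2, x.1.1.1.1.1.2, x.1.2), x.1.1.1.1.1.1.1.1)) =
      ent (A5 Q c) (fun x => ((x.1.2, x.1.1.1.2, x.1.1.1.1.1.2, x.1.1.2, x.1.1.1.1.2, x.2), x.1.1.1.1.1.1.1)) :=
    cop_ent_fst (A5_nn c hE) _ _ (fun x => ((x.1.2, x.1.1.1.2, x.1.1.1.1.1.2, x.1.1.2, x.1.1.1.1.2, x.2), x.1.1.1.1.1.1.1))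
  have h2b : ent (V1 Q c) (fun x => (x.1.1.2, x.1.1.1.1.2, x.1.1.1.1.1.1.2, x.1.1.1.2, x.1.1.1.1.1.2, x.1.2)) =
      ent (A5 Q c) (fun x => (x.1.2, x.1.1.1.2, x.1.1.1.1.1.2, x.1.1.2, x.1.1.1.1.2, x.2)) :=
    cop_ent_fst (A5_nn c hE) _ _ (fun x => (x.1.2, x.1.1.1.2, x.1.1.1.1.1.2, x.1.1.2, x.1.1.1.1.2, x.2))
  have h3 : ent (V3 Q c) (fun x => ((((x.1.1.1.1.2, x.1.1.1.1.1.1.2, x.1.1.1.1.1.1.1.1.1.2, x.1.1.1.1.1.1.1.1.2, x.1.1.1.1.1.2, x.1.1.1.1.1.1.1.2, x.1.1.1.2), x.1.1.2), x.1.2), x.2)) =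
      ent (V2 Q c) (fun x => (((x.1.1.1.2, x.1.1.1.1.1.2, x.1.1.1.1.1.1.1.1.2, x.1.1.1.1.1.1.1.2, x.1.1.1.1.2, x.1.1.1.1.1.1.2, x.1.1.2), x.1.2), x.2)) +
        (ent (B3 Q) (fun x => ((x.1.2, x.1.1.1.2, x.1.1.2, x.1.1.1.1.1), x.2)) - ent (B3 Q) (fun x => (x.1.2, x.1.1.1.2, x.1.1.2, x.1.1.1.1.1))) :=
    xat_ent _ (V2_nn c hE) (B3_nn hE) (vm3 c hE)
      (fun x => (((x.1.1.1.2, x.1.1.1.1.1.2, x.1.1.1.1.1.1.1.1.2, x.1.1.1.1.1.1.1.2, x.1.1.1.1.2, x.1.1.1.1.1.1.2, x.1.1.2), x.1.2), x.2))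
      (fun y => (y.1.1.1, y.2, y.1.1.2.2.2.1, y.1.1.2.2.2.2.2.1)) (fun _ => rfl)
  have h4 : ent (V4 Q c)
      (fun x => (((((x.1.1.1.1.1.2, x.1.1.1.1.1.1.1.2, x.1.1.1.1.1.1.1.1.1.1.2, x.1.1.1.1.1.1.1.1.1.2, x.1.1.1.1.1.1.2, x.1.1.1.1.1.1.1.1.2, x.1.1.1.1.2), x.1.1.1.2), x.1.1.2), x.1.2), x.2)) =
      ent (V3 Q c) (fun x => ((((x.1.1.1.1.2, x.1.1.1.1.1.1.2, x.1.1.1.1.1.1.1.1.1.2, x.1.1.1.1.1.1.1.1.2, x.1.1.1.1.1.2, x.1.1.1.1.1.1.1.2, x.1.1.1.2), x.1.1.2), x.1.2), x.2)) +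
        (ent (B3 Q) (fun x => ((x.1.2, x.2, x.1.1.2, x.1.1.1.1.1), x.1.1.1.2)) - ent (B3 Q) (fun x => (x.1.2, x.2, x.1.1.2, x.1.1.1.1.1))) :=
    xat_ent _ (V3_nn c hE) (B3_nn hE) (vm4 c hE)
      (fun x => ((((x.1.1.1.1.2, x.1.1.1.1.1.1.2, x.1.1.1.1.1.1.1.1.1.2, x.1.1.1.1.1.1.1.1.2, x.1.1.1.1.1.2, x.1.1.1.1.1.1.1.2, x.1.1.1.2), x.1.1.2), x.1.2), x.2))
      (fun y => (y.1.1.1.1, y.2, y.1.1.1.2.2.2.1, y.1.1.1.2.2.2.2.2.1)) (fun _ => rfl)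
  have h5 : ent (V5 Q c)
      (fun x => ((((((x.1.1.1.1.1.1.2, x.1.1.1.1.1.1.1.1.2, x.1.1.1.1.1.1.1.1.1.1.1.2, x.1.1.1.1.1.1.1.1.1.1.2, x.1.1.1.1.1.1.1.2, x.1.1.1.1.1.1.1.1.1.2, x.1.1.1.1.1.2), x.1.1.1.1.2), x.1.1.1.2), x.1.1.2), x.1.2), x.2)) =
      ent (V4 Q c)
        (fun x => (((((x.1.1.1.1.1.2, x.1.1.1.1.1.1.1.2, x.1.1.1.1.1.1.1.1.1.1.2, x.1.1.1.1.1.1.1.1.1.2, x.1.1.1.1.1.1.2, x.1.1.1.1.1.1.1.1.2, x.1.1.1.1.2), x.1.1.1.2), x.1.1.2), x.1.2), x.2)) +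
        (ent (B3 Q) (fun x => ((x.2, x.1.1.1.2, x.1.1.1.1.1, x.1.1.2), x.1.1.1.1.2)) - ent (B3 Q) (fun x => (x.2, x.1.1.1.2, x.1.1.1.1.1, x.1.1.2))) :=
    xat_ent _ (V4_nn c hE) (B3_nn hE) (vm5 c hE)
      (fun x => (((((x.1.1.1.1.1.2, x.1.1.1.1.1.1.1.2, x.1.1.1.1.1.1.1.1.1.1.2, x.1.1.1.1.1.1.1.1.1.2, x.1.1.1.1.1.1.2, x.1.1.1.1.1.1.1.1.2, x.1.1.1.1.2), x.1.1.1.2), x.1.1.2), x.1.2), x.2))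
      (fun y => (y.1.2, y.2, y.1.1.1.1.2.2.2.2.2.1, y.1.1.1.1.2.2.2.1)) (fun _ => rfl)
  have g1 := A5_a c hE
  have g2 := A5_bc c hE
  have g3 := B3_4 hE
  have g4 := B3_5 hE
  have g5 := B3_6 hE
  rw [h5, h4, h3, h2, h2a, h2b, h1]
  linarith

/-- the support of the law: `x0 = s0`, `x1 = s2`, `x2 = f1`, `y2 = f2`, `y3 = n`, `z = m` -/
theorem V5_ne {x} (h : V5 Q c x ≠ 0) :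
    (Q (x.1.1.1.1.2, x.1.1.1.1.1.1.2) ≠ 0 ∧ Q (x.1.1.1.1.2, x.1.1.1.1.1.1.1.1.2) ≠ 0 ∧ Q (x.1.1.1.1.2, x.1.1.1.1.1.1.1.1.1.1.1.2) ≠ 0 ∧ Q (x.1.1.1.1.2, x.1.1.1.1.1.1.1.2) ≠ 0) ∧
    (Q (x.1.1.1.2, x.1.1.1.1.1.1.2) ≠ 0 ∧ Q (x.1.1.1.2, x.1.1.1.1.1.1.1.1.2) ≠ 0 ∧ Q (x.1.1.1.2, x.1.1.1.1.1.1.1.2) ≠ 0 ∧ Q (x.1.1.2, x.1.1.1.2) ≠ 0) ∧
    (Q (x.1.1.1.1.1.1.1.1.2, x.1.1.1.1.1.1.1.1.1.1.2) ≠ 0 ∧ Q (x.1.1.1.1.1.1.1.1.1.1.1.2, x.1.1.1.1.1.1.1.1.1.1.2) ≠ 0 ∧ Q (x.2, x.1.1.1.1.1.1.1.1.1.1.2) ≠ 0) ∧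
    (Q (x.1.1.1.1.1.1.1.1.1.1.1.2, x.1.1.1.1.1.1.1.1.1.2) ≠ 0 ∧ Q (x.1.1.1.1.1.1.1.1.1.2, x.1.1.2) ≠ 0 ∧ Q (x.1.1.1.1.1.1.1.1.1.2, x.2) ≠ 0) ∧
    (Q (x.1.2, x.1.1.1.1.1.1.2) ≠ 0 ∧ Q (x.1.1.2, x.1.2) ≠ 0 ∧ Q (x.2, x.1.2) ≠ 0) ∧
    ∀ i, Q (x.1.1.1.1.2, x.1.1.1.1.1.2 i) ≠ 0 ∧ Q (x.1.1.1.2, x.1.1.1.1.1.2 i) ≠ 0 := by
  obtain ⟨a5, w5, b5, c5, d5⟩ := xat_ne_zero _ (V4_nn c hE) (B3_nn hE) h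
  obtain ⟨a4, w4, b4, c4, d4⟩ := xat_ne_zero _ (V3_nn c hE) (B3_nn hE) a5
  obtain ⟨a3, w3, b3, c3, d3⟩ := xat_ne_zero _ (V2_nn c hE) (B3_nn hE) a4
  obtain ⟨a2, w2, b2, c2, d2⟩ := cop_ne_zero (V1_nn c hE) _ _ a3
  obtain ⟨a1, w1, b1, c1, d1⟩ := cop_ne_zero (A5_nn c hE) _ _ a2
  obtain ⟨a0, -⟩ := cop_ne_zero (A5_nn c hE) _ _ b2
  simp only [Prod.mk.injEq] at c5 c4 c3 c2 c1
  obtain ⟨e1, e2, e3, e4, e5, e6⟩ := c1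
  obtain ⟨f1, f2, f3, f4, f5, f6⟩ := c2
  obtain ⟨g1, g2, g3, g4⟩ := c3
  obtain ⟨i1, i2, i3, i4⟩ := c4
  obtain ⟨j1, j2, j3, j4⟩ := c5
  obtain ⟨⟨A1, A2, A3, A4, A5, A6, A7⟩, A8⟩ := A5_ne c hE a1
  obtain ⟨⟨B1, B2, B3, B4, B5, B6, B7⟩, B8⟩ := A5_ne c hE b1
  obtain ⟨⟨C1, C2, C3, C4, C5, C6, C7⟩, C8⟩ := A5_ne c hE a0
  obtain ⟨D1, D2, D3, D4, D5, D6⟩ := B3_ne hE b3
  obtain ⟨E1, E2, E3, E4, E5, E6⟩ := B3_ne hE b4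
  obtain ⟨F1, F2, F3, F4, F5, F6⟩ := B3_ne hE b5
  rw [e1, d1] at B7
  rw [e2, d1] at B4
  rw [e3, d1] at B1
  rw [e4, d1] at B6
  rw [e6, d1] at B8
  rw [f1, d2] at C7
  rw [f2, d2] at C4
  rw [f4, d2] at C6
  rw [f6, d2] at C8
  rw [g4, d3] at D5
  rw [g2, d3] at D6
  rw [i1, d4] at E4
  rw [i2, d4] at E6
  rw [j3, d5] at F1
  rw [j2, d5] at F2
  rw [j4, d5] at F3
  exact ⟨⟨B7, B4, B1, B6⟩, ⟨C7, C4, C6, D6⟩, ⟨A5, A2, F3⟩, ⟨A3, D5, F1⟩, ⟨E4, E6, F2⟩,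
    fun i => ⟨B8 i, C8 i⟩⟩

end Vale.Agent.P050.M18C
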